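import Vale.Agent.P146.H863.PL

/-!
# Prékopa–Leindler for Gaussian product measures (helper863)
-/

open MeasureTheory Set ProbabilityTheory
open scoped ENNReal

namespace Vale.Agent.P146.H863.PL

universe u

/-- fibre form: marginals of log-concave functions are log-concave -/
theorem fibre {E : Type u} [AddCommGroup E] [Module ℝ E] {φ : E → ℝ → ℝ}
    (hφ : ConcaveOn ℝ univ (fun p : E × ℝ => φ p.1 p.2))
    (hi : ∀ x, Integrable (fun t => Real.exp (φ x t))) :
    ConcaveOn ℝ univ (fun x => Real.log (∫ t, Real.exp (φ x t))) := by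
  have hsl : ∀ x, ConcaveOn ℝ univ (φ x) := by
    intro x
    refine ⟨convex_univ, fun s _ t _ a b ha hb hab => ?_⟩
    have h := hφ.2 (mem_univ (x, s)) (mem_univ (x, t)) ha hb hab
    simp only [Prod.smul_fst, Prod.smul_snd, Prod.fst_add, Prod.snd_add] at h
    rwa [← add_smul, hab, one_smul] at h
  refine ⟨convex_univ, fun x _ y _ a b ha hb hab => ?_⟩
  rcases ha.eq_or_lt with rfl | ha0
  · have : b = 1 := by linarith
    subst this
    simp
  rcases hb.eq_or_lt with rfl | hb0
  · have : a = 1 := by linarith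
    subst this
    simp
  simp only [smul_eq_mul]
  refine pl_one (hsl x) (hsl y) (hsl _) (hi x) (hi y) (hi _) ha0 hb0 hab fun s t => ?_
  have h := hφ.2 (mem_univ (x, s)) (mem_univ (y, t)) ha hb hab
  simpa [smul_eq_mul] using h

/-- the standard Gaussian measure on the line -/
noncomputable abbrev γ1 : Measure ℝ := gaussianReal 0 1

theorem log_pdf (t : ℝ) : Real.log (gaussianPDFReal 0 1 t)
    = -Real.log (Real.sqrt (2 * Real.pi)) - t ^ 2 / 2 := by
  rw [gaussianPDFReal]
  have hpos : (0 : ℝ) < Real.sqrt (2 * Real.pi * ((1 : NNReal) : ℝ)) := by positivity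
  rw [Real.log_mul (by positivity) (Real.exp_pos _).ne', Real.log_exp, Real.log_inv]
  simp
  ring

theorem exp_log_pdf (t : ℝ) : Real.exp (Real.log (gaussianPDFReal 0 1 t))
    = gaussianPDFReal 0 1 t :=
  Real.exp_log (gaussianPDFReal_pos _ _ _ one_ne_zero)

/-- one Gaussian variable -/
theorem gauss1 {E : Type u} [AddCommGroup E] [Module ℝ E] {φ : E → ℝ → ℝ}
    (hφ : ConcaveOn ℝ univ (fun p : E × ℝ => φ p.1 p.2))
    (hi : ∀ x, Integrable (fun t => Real.exp (φ x t)) γ1) :
    ConcaveOn ℝ univ (fun x => Real.log (∫ t, Real.exp (φ x t) ∂γ1)) := by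
  have e1 : ∀ x, (fun t => Real.exp (φ x t + Real.log (gaussianPDFReal 0 1 t)))
      = fun t => gaussianPDFReal 0 1 t • Real.exp (φ x t) := by
    intro x; funext t
    rw [Real.exp_add, exp_log_pdf, smul_eq_mul, mul_comm]
  have hint : ∀ x, Integrable (fun t => Real.exp (φ x t + Real.log (gaussianPDFReal 0 1 t))) := by
    intro x
    rw [e1]
    have h := hi x
    rw [γ1, gaussianReal_of_var_ne_zero _ one_ne_zero,
      integrable_withDensity_iff_integrable_smul' (measurable_gaussianPDF _ _)
        (ae_of_all _ fun _ => gaussianPDF_lt_top)] at h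
    simpa [toReal_gaussianPDF] using h
  have hconc : ConcaveOn ℝ univ
      (fun p : E × ℝ => φ p.1 p.2 + Real.log (gaussianPDFReal 0 1 p.2)) := by
    refine hφ.add ?_
    have : (fun p : E × ℝ => Real.log (gaussianPDFReal 0 1 p.2))
        = fun p => -Real.log (Real.sqrt (2 * Real.pi)) - p.2 ^ 2 / 2 := by
      funext p; exact log_pdf p.2
    rw [this]
    refine ⟨convex_univ, fun p _ q _ a b ha hb hab => ?_⟩
    simp only [Prod.snd_add, Prod.smul_snd, smul_eq_mul]
    have hb' : b = 1 - a := by linarith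
    subst hb'
    nlinarith [mul_nonneg (mul_nonneg ha hb) (sq_nonneg (p.2 - q.2))]
  have h := fibre hconc hint
  refine h.congr fun x _ => ?_
  simp only
  rw [γ1, integral_gaussianReal_eq_integral_smul one_ne_zero, e1]

/-- growth class: at most linear growth from above -/
def Gr {κ : Type*} [Fintype κ] (f : (κ → ℝ) → ℝ) : Prop :=
  ∃ A B : ℝ, ∀ g, f g ≤ A + B * ∑ i, |g i|

theorem integrable_exp_abs (B : ℝ) : Integrable (fun t => Real.exp (B * |t|)) γ1 := by
  have h1 := integrable_exp_mul_gaussianReal (μ := 0) (v := 1) B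
  have h2 := integrable_exp_mul_gaussianReal (μ := 0) (v := 1) (-B)
  refine (h1.add h2).mono' (by fun_prop) (Filter.Eventually.of_forall fun t => ?_)
  rw [Real.norm_eq_abs, abs_of_pos (Real.exp_pos _)]
  simp only [Pi.add_apply]
  rcases abs_cases t with ⟨h, _⟩ | ⟨h, _⟩ <;> rw [h]
  · linarith [Real.exp_pos (-B * t)]
  · have : B * -t = -B * t := by ring
    rw [this]
    linarith [Real.exp_pos (B * t)]

theorem integrable_of_gr {κ : Type*} [Fintype κ] {f : (κ → ℝ) → ℝ} (hm : Measurable f)
    (hb : Gr f) : Integrable (fun g => Real.exp (f g)) (Measure.pi fun _ : κ => γ1) := by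
  obtain ⟨A, B, h⟩ := hb
  have hprod : Integrable (fun g : κ → ℝ => ∏ i, Real.exp (B * |g i|))
      (Measure.pi fun _ : κ => γ1) :=
    Integrable.fintype_prod (fun _ => integrable_exp_abs B)
  refine (hprod.const_mul (Real.exp A)).mono' (by fun_prop)
    (Filter.Eventually.of_forall fun g => ?_)
  rw [Real.norm_eq_abs, abs_of_pos (Real.exp_pos _), ← Real.exp_sum, ← Real.exp_add,
    ← Finset.mul_sum]
  exact Real.exp_le_exp.2 (h g)

/-- several Gaussian variables, indexed by `Fin n` -/
theorem gauss_fin : ∀ (n : ℕ) {E : Type u} [AddCommGroup E] [Module ℝ E]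
    (φ : E → (Fin n → ℝ) → ℝ),
    ConcaveOn ℝ univ (fun p : E × (Fin n → ℝ) => φ p.1 p.2) →
    (∀ x, Measurable (φ x)) → (∀ x, Gr (φ x)) →
    ConcaveOn ℝ univ
      (fun x => Real.log (∫ g, Real.exp (φ x g) ∂(Measure.pi fun _ : Fin n => γ1))) := by
  intro n
  induction n with
  | zero =>
    intro E _ _ φ hφ _ _
    have : ∀ x, Real.log (∫ g, Real.exp (φ x g) ∂(Measure.pi fun _ : Fin 0 => γ1))
        = φ x 0 := by
      intro x
      have hc : (fun g : Fin 0 → ℝ => Real.exp (φ x g)) = fun _ => Real.exp (φ x 0) := by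
        funext g; rw [Subsingleton.elim g 0]
      rw [hc, integral_const]
      simp
    simp only [this]
    refine ⟨convex_univ, fun x _ y _ a b ha hb hab => ?_⟩
    have h := hφ.2 (mem_univ (x, (0 : Fin 0 → ℝ))) (mem_univ (y, (0 : Fin 0 → ℝ))) ha hb hab
    simpa using h
  | succ n ih =>
    intro E _ _ φ hφ hm hg
    -- integrate the last `n` variables first
    let Φ : E × ℝ → (Fin n → ℝ) → ℝ := fun p g => φ p.1 (Fin.cons p.2 g)
    have hcons : Measurable (fun p : ℝ × (Fin n → ℝ) => (Fin.cons p.1 p.2 : Fin (n + 1) → ℝ)) := by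
      refine measurable_pi_iff.2 fun i => ?_
      refine Fin.cases ?_ (fun j => ?_) i
      · simpa using measurable_fst
      · simp only [Fin.cons_succ]
        exact (measurable_pi_apply j).comp measurable_snd
    have hΦ : ConcaveOn ℝ univ (fun p : (E × ℝ) × (Fin n → ℝ) => Φ p.1 p.2) := by
      refine ⟨convex_univ, fun p _ q _ a b ha hb hab => ?_⟩
      have h := hφ.2 (mem_univ (p.1.1, (Fin.cons p.1.2 p.2 : Fin (n + 1) → ℝ)))
        (mem_univ (q.1.1, (Fin.cons q.1.2 q.2 : Fin (n + 1) → ℝ))) ha hb hab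
      have e : a • (Fin.cons p.1.2 p.2 : Fin (n + 1) → ℝ) + b • (Fin.cons q.1.2 q.2 : Fin (n + 1) → ℝ)
          = Fin.cons (a • p.1.2 + b • q.1.2) (a • p.2 + b • q.2) := by
        funext i
        refine Fin.cases ?_ (fun j => ?_) i <;> simp
      simp only [Prod.smul_fst, Prod.smul_snd, Prod.fst_add, Prod.snd_add, e] at h
      exact h
    have hΦm : ∀ p, Measurable (Φ p) := fun p =>
      (hm p.1).comp (hcons.comp (measurable_const.prodMk measurable_id))
    have hΦg : ∀ p, Gr (Φ p) := by
      intro p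
      obtain ⟨A, B, h⟩ := hg p.1
      refine ⟨A + B * |p.2|, B, fun g => ?_⟩
      have := h (Fin.cons p.2 g)
      rw [Fin.sum_univ_succ] at this
      simp only [Fin.cons_zero, Fin.cons_succ] at this
      show φ p.1 (Fin.cons p.2 g) ≤ _
      linarith
    have hstep := ih Φ hΦ hΦm hΦg
    -- the first variable
    let Ψ : E → ℝ → ℝ := fun x t =>
      Real.log (∫ g, Real.exp (Φ (x, t) g) ∂(Measure.pi fun _ : Fin n => γ1))
    have hΨe : ∀ x t, Real.exp (Ψ x t)
        = ∫ g, Real.exp (Φ (x, t) g) ∂(Measure.pi fun _ : Fin n => γ1) := by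
      intro x t
      exact Real.exp_log (integral_exp_pos (integrable_of_gr (hΦm (x, t)) (hΦg (x, t))))
    have hmp := (measurePreserving_piFinSuccAbove (fun _ : Fin (n + 1) => γ1) 0).symm
    have hsymm : ∀ p : ℝ × (Fin n → ℝ),
        (MeasurableEquiv.piFinSuccAbove (fun _ : Fin (n + 1) => ℝ) 0).symm p
          = (Fin.cons p.1 p.2 : Fin (n + 1) → ℝ) := by
      intro p
      rw [MeasurableEquiv.piFinSuccAbove_symm_apply, Fin.insertNthEquiv]
      simp [Fin.insertNth_zero']
    have hprodint : ∀ x, Integrable (fun p : ℝ × (Fin n → ℝ) => Real.exp (φ x (Fin.cons p.1 p.2)))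
        (γ1.prod (Measure.pi fun _ : Fin n => γ1)) := by
      intro x
      have h0 := integrable_of_gr (hm x) (hg x)
      have h1 := (hmp.integrable_comp_emb (MeasurableEquiv.measurableEmbedding _)).2 h0
      refine h1.congr (Filter.Eventually.of_forall fun p => ?_)
      simp only [Function.comp]
      rw [hsymm]
    have hfub : ∀ x, ∫ g, Real.exp (φ x g) ∂(Measure.pi fun _ : Fin (n + 1) => γ1)
        = ∫ t, Real.exp (Ψ x t) ∂γ1 := by
      intro x
      rw [← hmp.integral_comp (MeasurableEquiv.measurableEmbedding _)]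
      have : (fun p : ℝ × (Fin n → ℝ) => Real.exp (φ x
          ((MeasurableEquiv.piFinSuccAbove (fun _ : Fin (n + 1) => ℝ) 0).symm p)))
          = fun p => Real.exp (φ x (Fin.cons p.1 p.2)) := by
        funext p; rw [hsymm]
      rw [this]
      refine (integral_prod _ (hprodint x)).trans ?_
      refine integral_congr_ae (Filter.Eventually.of_forall fun t => ?_)
      exact (hΨe x t).symm
    have hΨi : ∀ x, Integrable (fun t => Real.exp (Ψ x t)) γ1 := by
      intro x
      refine (hprodint x).integral_prod_left.congr (Filter.Eventually.of_forall fun t => ?_)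
      exact (hΨe x t).symm
    have hΨc : ConcaveOn ℝ univ (fun p : E × ℝ => Ψ p.1 p.2) := hstep
    have h := gauss1 hΨc hΨi
    refine h.congr fun x _ => ?_
    simp only
    rw [hfub x]

/-- **Prékopa–Leindler, Gaussian form.** If `φ : E → (κ → ℝ) → ℝ` is jointly concave, measurable
and of at most linear growth (from above) in `g`, then `x ↦ log E exp (φ x g)` is concave. -/
theorem gauss {κ : Type*} [Fintype κ] {E : Type u} [AddCommGroup E] [Module ℝ E]
    (φ : E → (κ → ℝ) → ℝ)
    (hφ : ConcaveOn ℝ univ (fun p : E × (κ → ℝ) => φ p.1 p.2))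
    (hm : ∀ x, Measurable (φ x)) (hg : ∀ x, Gr (φ x)) :
    ConcaveOn ℝ univ
      (fun x => Real.log (∫ g, Real.exp (φ x g) ∂(Measure.pi fun _ : κ => gaussianReal 0 1))) := by
  classical
  let e : Fin (Fintype.card κ) ≃ κ := (Fintype.equivFin κ).symm
  have hmp := measurePreserving_piCongrLeft (fun _ : κ => γ1) e
  set T := MeasurableEquiv.piCongrLeft (fun _ : κ => ℝ) e with hT
  have hTa : ∀ (g : Fin (Fintype.card κ) → ℝ) (i : Fin (Fintype.card κ)), T g (e i) = g i := by
    intro g i
    rw [hT, MeasurableEquiv.coe_piCongrLeft, Equiv.piCongrLeft_apply_apply]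
  have hTl : ∀ (a b : ℝ) (g g' : Fin (Fintype.card κ) → ℝ),
      T (a • g + b • g') = a • T g + b • T g' := by
    intro a b g g'
    funext k
    obtain ⟨i, rfl⟩ := e.surjective k
    simp [hTa]
  have hint : ∀ x, ∫ g, Real.exp (φ x g) ∂(Measure.pi fun _ : κ => gaussianReal 0 1)
      = ∫ g, Real.exp (φ x (T g)) ∂(Measure.pi fun _ : Fin (Fintype.card κ) => γ1) := by
    intro x
    exact (hmp.integral_comp (MeasurableEquiv.measurableEmbedding _)
      (fun g => Real.exp (φ x g))).symm
  have h := gauss_fin (Fintype.card κ) (fun x g => φ x (T g)) ?_ ?_ ?_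
  · refine h.congr fun x _ => ?_
    simp only
    rw [hint x]
  · refine ⟨convex_univ, fun p _ q _ a b ha hb hab => ?_⟩
    have h := hφ.2 (mem_univ (p.1, T p.2)) (mem_univ (q.1, T q.2)) ha hb hab
    simp only [Prod.smul_fst, Prod.smul_snd, Prod.fst_add, Prod.snd_add] at h ⊢
    rw [hTl]
    exact h
  · intro x
    exact (hm x).comp T.measurable
  · intro x
    obtain ⟨A, B, hx⟩ := hg x
    refine ⟨A, B, fun g => (hx (T g)).trans (le_of_eq ?_)⟩
    rw [← e.sum_comp (fun k => |T g k|)]
    simp [hTa]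

end Vale.Agent.P146.H863.PL
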