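import Vale.Agent.P146.H605.Gauge
import Vale.Agent.P146.H863.PLG

/-!
# P146: gauge symmetry and log-concavity of `x ↦ E exp (F + ψ x F)` (helper863)
-/

open MeasureTheory Set ProbabilityTheory
open scoped ENNReal

namespace Vale.Agent.P146.H863

open Vale.Agent.P146.H605 Vale.Agent.P146.H605.Gauge

variable (n : ℕ) (β : ℝ)

theorem cont_freeEnergy : Continuous (freeEnergy n β) := by
  unfold freeEnergy
  refine Continuous.log ?_ fun g => (partitionFn_pos β g).ne'
  unfold partitionFn
  exact continuous_finsetSum _ fun τ _ =>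
    Real.continuous_exp.comp (continuous_const.mul (continuous_hamiltonian τ))

theorem exp_freeEnergy (g : Pair n → ℝ) :
    Real.exp (freeEnergy n β g) = partitionFn n β g :=
  Real.exp_log (partitionFn_pos β g)

theorem gibbs_eq_exp (g : Pair n → ℝ) (σ : Fin n → ℤˣ) :
    gibbs n β g σ = Real.exp (β * hamiltonian n g σ - freeEnergy n β g) := by
  rw [Real.exp_sub, exp_freeEnergy]
  rfl

theorem ham_lin (a b : ℝ) (g g' : Pair n → ℝ) (σ : Fin n → ℤˣ) :
    hamiltonian n (a • g + b • g') σ = a * hamiltonian n g σ + b * hamiltonian n g' σ := by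
  unfold hamiltonian
  rw [mul_left_comm a, mul_left_comm b, ← mul_add]
  congr 1
  rw [Finset.mul_sum, Finset.mul_sum, ← Finset.sum_add_distrib]
  refine Finset.sum_congr rfl fun p _ => ?_
  simp only [Pi.add_apply, Pi.smul_apply, smul_eq_mul]
  ring

theorem abs_unit (u : ℤˣ) : |((u : ℤ) : ℝ)| = 1 := by
  rcases Int.units_eq_one_or u with h | h <;> simp [h]

theorem ham_abs (g : Pair n → ℝ) (σ : Fin n → ℤˣ) :
    |hamiltonian n g σ| ≤ (1 / Real.sqrt n) * ∑ p, |g p| := by
  unfold hamiltonian
  rw [abs_mul, abs_of_nonneg (by positivity : (0 : ℝ) ≤ 1 / Real.sqrt n)]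
  refine mul_le_mul_of_nonneg_left ?_ (by positivity)
  refine (Finset.abs_sum_le_sum_abs _ _).trans (Finset.sum_le_sum fun p _ => ?_)
  rw [abs_mul, abs_mul, abs_unit, abs_unit, mul_one, mul_one]

/-- the free energy is a convex function of the disorder -/
theorem convex_freeEnergy : ConvexOn ℝ Set.univ (freeEnergy n β) := by
  refine ⟨convex_univ, fun x _ y _ a b ha hb hab => ?_⟩
  simp only [smul_eq_mul]
  have h1 : ∀ σ : Fin n → ℤˣ,
      Real.exp (β * hamiltonian n (a • x + b • y) σ -
        (a * freeEnergy n β x + b * freeEnergy n β y)) ≤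
      a * gibbs n β x σ + b * gibbs n β y σ := by
    intro σ
    have h := convexOn_exp.2 (Set.mem_univ (β * hamiltonian n x σ - freeEnergy n β x))
      (Set.mem_univ (β * hamiltonian n y σ - freeEnergy n β y)) ha hb hab
    simp only [smul_eq_mul] at h
    rw [gibbs_eq_exp, gibbs_eq_exp]
    refine le_trans (le_of_eq ?_) h
    rw [ham_lin]
    congr 1
    ring
  have h2 : partitionFn n β (a • x + b • y) * Real.exp (-(a * freeEnergy n β x +
      b * freeEnergy n β y)) ≤ 1 := by
    unfold partitionFn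
    rw [Finset.sum_mul]
    calc ∑ σ : Fin n → ℤˣ, Real.exp (β * hamiltonian n (a • x + b • y) σ) *
          Real.exp (-(a * freeEnergy n β x + b * freeEnergy n β y))
        = ∑ σ : Fin n → ℤˣ, Real.exp (β * hamiltonian n (a • x + b • y) σ -
            (a * freeEnergy n β x + b * freeEnergy n β y)) := by
          refine Finset.sum_congr rfl fun σ _ => ?_
          rw [← Real.exp_add, sub_eq_add_neg]
      _ ≤ ∑ σ : Fin n → ℤˣ, (a * gibbs n β x σ + b * gibbs n β y σ) :=
          Finset.sum_le_sum fun σ _ => h1 σ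
      _ = 1 := by
          rw [Finset.sum_add_distrib, ← Finset.mul_sum, ← Finset.mul_sum, sum_gibbs, sum_gibbs,
            mul_one, mul_one, hab]
  rw [← exp_freeEnergy, ← Real.exp_add] at h2
  have h3 := Real.exp_le_one_iff.1 h2
  linarith

/-- linear growth of the free energy -/
theorem free_abs : ∃ A B : ℝ, 0 ≤ B ∧ ∀ g : Pair n → ℝ, |freeEnergy n β g| ≤ A + B * ∑ p, |g p| := by
  refine ⟨n * Real.log 2, |β| * (1 / Real.sqrt n), by positivity, fun g => ?_⟩
  have hb : ∀ σ : Fin n → ℤˣ, |β * hamiltonian n g σ| ≤ |β| * (1 / Real.sqrt n) * ∑ p, |g p| := by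
    intro σ
    rw [abs_mul, mul_assoc]
    exact mul_le_mul_of_nonneg_left (ham_abs n g σ) (abs_nonneg β)
  have hlog : 0 ≤ (n : ℝ) * Real.log 2 := by positivity
  rw [abs_le]
  constructor
  · have h1 : Real.exp (β * hamiltonian n g 1) ≤ partitionFn n β g :=
      Finset.single_le_sum (f := fun τ : Fin n → ℤˣ => Real.exp (β * hamiltonian n g τ))
        (fun _ _ => (Real.exp_pos _).le) (Finset.mem_univ 1)
    rw [← exp_freeEnergy] at h1
    have h2 := Real.exp_le_exp.1 h1
    have h3 := (abs_le.1 (hb 1)).1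
    linarith
  · have h1 : partitionFn n β g ≤ 2 ^ n * Real.exp (|β| * (1 / Real.sqrt n) * ∑ p, |g p|) := by
      unfold partitionFn
      calc ∑ σ : Fin n → ℤˣ, Real.exp (β * hamiltonian n g σ)
          ≤ ∑ _σ : Fin n → ℤˣ, Real.exp (|β| * (1 / Real.sqrt n) * ∑ p, |g p|) :=
            Finset.sum_le_sum fun σ _ => Real.exp_le_exp.2 ((le_abs_self _).trans (hb σ))
        _ = _ := by
            rw [Finset.sum_const, Finset.card_univ, nsmul_eq_mul]
            congr 1
            simp [Fintype.card_units_int]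
    have h2 : (2 : ℝ) ^ n = Real.exp (n * Real.log 2) := by
      rw [Real.exp_nat_mul, Real.exp_log (by norm_num)]
    rw [← exp_freeEnergy, h2, ← Real.exp_add] at h1
    exact Real.exp_le_exp.1 h1

/-- **Gauge identity**: `E θ(F) = 2^n E exp (β H_τ - F) θ(F)`. -/
theorem gauge_id (θ : ℝ → ℝ)
    (hi : Integrable (fun g => θ (freeEnergy n β g)) (disorder n)) (τ : Fin n → ℤˣ) :
    ∫ g, θ (freeEnergy n β g) ∂(disorder n) =
      2 ^ n * ∫ g, gibbs n β g τ * θ (freeEnergy n β g) ∂(disorder n) := by
  have hF : ∀ (s : Fin n → ℤˣ) (g : Pair n → ℝ),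
      freeEnergy n β (flip s g) = freeEnergy n β g := by
    intro s g
    unfold freeEnergy
    rw [partitionFn_flip]
  have hint : ∀ σ : Fin n → ℤˣ,
      Integrable (fun g => gibbs n β g σ * θ (freeEnergy n β g)) (disorder n) := by
    intro σ
    refine hi.bdd_mul (c := 1) (continuous_gibbs β σ).aestronglyMeasurable
      (Filter.Eventually.of_forall fun g => ?_)
    rw [Real.norm_eq_abs, abs_of_nonneg (gibbs_nonneg β g σ)]
    exact gibbs_le_one β g σ
  have heq : ∀ σ : Fin n → ℤˣ, ∫ g, gibbs n β g σ * θ (freeEnergy n β g) ∂(disorder n) =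
      ∫ g, gibbs n β g τ * θ (freeEnergy n β g) ∂(disorder n) := by
    intro σ
    have hm := measurePreserving_flip (σ * τ⁻¹)
    have hmeas : AEStronglyMeasurable (fun g => gibbs n β g τ * θ (freeEnergy n β g))
        ((disorder n).map (flip (σ * τ⁻¹))) := by
      rw [hm.map_eq]
      exact (hint τ).aestronglyMeasurable
    have h := integral_map (μ := disorder n) hm.measurable.aemeasurable hmeas
    rw [hm.map_eq] at h
    rw [h]
    refine integral_congr_ae (Filter.Eventually.of_forall fun g => ?_)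
    simp only [gibbs_flip, hF, inv_mul_cancel_right]
  have h1 : ∑ σ : Fin n → ℤˣ, ∫ g, gibbs n β g σ * θ (freeEnergy n β g) ∂(disorder n) =
      ∫ g, θ (freeEnergy n β g) ∂(disorder n) := by
    rw [← integral_finsetSum _ fun σ _ => hint σ]
    refine integral_congr_ae (Filter.Eventually.of_forall fun g => ?_)
    simp only
    rw [← Finset.sum_mul, sum_gibbs, one_mul]
  rw [← h1, Finset.sum_congr rfl fun σ _ => heq σ, Finset.sum_const, Finset.card_univ,
    nsmul_eq_mul]
  congr 1
  simp [Fintype.card_units_int]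

/-- **Log-concavity by the gauge symmetry.** If `(x,u) ↦ ψ x u` is jointly concave, nonincreasing
in `u`, then `x ↦ log E exp (F + ψ x F)` is concave. -/
theorem logconc {E : Type*} [AddCommGroup E] [Module ℝ E] (ψ : E → ℝ → ℝ)
    (hc : ConcaveOn ℝ univ (fun p : E × ℝ => ψ p.1 p.2)) (hanti : ∀ x, Antitone (ψ x))
    (hgr : ∀ x, ∃ A B : ℝ, 0 ≤ B ∧ ∀ u, ψ x u ≤ A + B * |u|) :
    ConcaveOn ℝ univ (fun x => Real.log
      (∫ g, Real.exp (freeEnergy n β g + ψ x (freeEnergy n β g)) ∂(disorder n))) := by
  obtain ⟨A, B, hB, hF⟩ := free_abs n β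
  have hm : ∀ x, Measurable (ψ x) := fun x => (hanti x).measurable
  set φ : E → (Pair n → ℝ) → ℝ := fun x g => β * hamiltonian n g 1 + ψ x (freeEnergy n β g) with hφ
  have hφm : ∀ x, Measurable (φ x) := by
    intro x
    refine Measurable.add ?_ ((hm x).comp (cont_freeEnergy n β).measurable)
    exact ((continuous_hamiltonian 1).measurable).const_mul β
  have hψgr : ∀ x, PL.Gr (fun g => ψ x (freeEnergy n β g)) := by
    intro x
    obtain ⟨A', B', hB', hx⟩ := hgr x
    refine ⟨A' + B' * A, B' * B, fun g => (hx _).trans ?_⟩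
    have h := mul_le_mul_of_nonneg_left (hF g) hB'
    linarith [h]
  have hφgr : ∀ x, PL.Gr (φ x) := by
    intro x
    obtain ⟨A', B', hx⟩ := hψgr x
    refine ⟨A', |β| * (1 / Real.sqrt n) + B', fun g => ?_⟩
    have h1 := hx g
    have h2 : β * hamiltonian n g 1 ≤ |β| * (1 / Real.sqrt n) * ∑ p, |g p| := by
      refine (le_abs_self _).trans ?_
      rw [abs_mul, mul_assoc]
      exact mul_le_mul_of_nonneg_left (ham_abs n g 1) (abs_nonneg β)
    simp only [hφ] at h1 ⊢
    linarith
  have hφc : ConcaveOn ℝ univ (fun p : E × (Pair n → ℝ) => φ p.1 p.2) := by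
    refine ⟨convex_univ, fun p _ q _ a b ha hb hab => ?_⟩
    have h1 := (convex_freeEnergy n β).2 (mem_univ p.2) (mem_univ q.2) ha hb hab
    have h2 := hanti (a • p.1 + b • q.1) h1
    have h3 := hc.2 (mem_univ (p.1, freeEnergy n β p.2)) (mem_univ (q.1, freeEnergy n β q.2))
      ha hb hab
    simp only [Prod.smul_fst, Prod.smul_snd, Prod.fst_add, Prod.snd_add, smul_eq_mul, hφ]
      at h1 h2 h3 ⊢
    rw [ham_lin]
    nlinarith [h2, h3]
  have h := PL.gauss φ hφc hφm hφgr
  have key : ∀ x, ∫ g, Real.exp (freeEnergy n β g + ψ x (freeEnergy n β g)) ∂(disorder n) =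
      2 ^ n * ∫ g, Real.exp (φ x g) ∂(disorder n) := by
    intro x
    have hi : Integrable (fun g => Real.exp (freeEnergy n β g + ψ x (freeEnergy n β g)))
        (disorder n) := by
      refine PL.integrable_of_gr ((cont_freeEnergy n β).measurable.add
        ((hm x).comp (cont_freeEnergy n β).measurable)) ?_
      obtain ⟨A', B', hx⟩ := hψgr x
      refine ⟨A + A', B + B', fun g => ?_⟩
      have h1 := hx g
      have h2 := (le_abs_self _).trans (hF g)
      simp only at h1
      linarith
    rw [gauge_id n β (fun u => Real.exp (u + ψ x u)) hi 1]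
    congr 1
    refine integral_congr_ae (Filter.Eventually.of_forall fun g => ?_)
    simp only [hφ]
    rw [gibbs_eq_exp, ← Real.exp_add]
    congr 1
    ring
  have hpos : ∀ x, 0 < ∫ g, Real.exp (φ x g) ∂(disorder n) := by
    intro x
    exact integral_exp_pos (PL.integrable_of_gr (hφm x) (hφgr x))
  have e : ∀ x, Real.log (∫ g, Real.exp (freeEnergy n β g + ψ x (freeEnergy n β g))
      ∂(disorder n)) = Real.log (2 ^ n) + Real.log (∫ g, Real.exp (φ x g) ∂(disorder n)) := by
    intro x
    rw [key x, Real.log_mul (by positivity) (hpos x).ne']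
  simp only [e]
  exact (concaveOn_const _ convex_univ).add h

/-- the Gumbel density of the free energy -/
noncomputable def p (y : ℝ) : ℝ :=
  ∫ g, Real.exp (freeEnergy n β g - y - Real.exp (freeEnergy n β g - y)) ∂(disorder n)

theorem p_eq (y : ℝ) : p n β y = ∫ g, Real.exp (freeEnergy n β g +
    (-y - Real.exp (freeEnergy n β g - y))) ∂(disorder n) := by
  unfold p
  congr 1
  funext g
  congr 1
  ring

theorem p_integrable (y : ℝ) : Integrable (fun g =>
    Real.exp (freeEnergy n β g - y - Real.exp (freeEnergy n β g - y))) (disorder n) := by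
  refine Integrable.of_bound (C := 1) ?_ (Filter.Eventually.of_forall fun g => ?_)
  · have := cont_freeEnergy n β
    exact (by fun_prop : Continuous _).aestronglyMeasurable
  · rw [Real.norm_eq_abs, abs_of_pos (Real.exp_pos _), Real.exp_le_one_iff]
    linarith [Real.add_one_le_exp (freeEnergy n β g - y)]

theorem p_pos (y : ℝ) : 0 < p n β y := integral_exp_pos (p_integrable n β y)

/-- the Gumbel density is log-concave -/
theorem p_logconc : ConcaveOn ℝ univ (fun y => Real.log (p n β y)) := by
  have hc : ConcaveOn ℝ univ (fun q : ℝ × ℝ => -q.1 - Real.exp (q.2 - q.1)) := by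
    refine ⟨convex_univ, fun x _ y _ a b ha hb hab => ?_⟩
    have h := convexOn_exp.2 (mem_univ (x.2 - x.1)) (mem_univ (y.2 - y.1)) ha hb hab
    simp only [Prod.smul_fst, Prod.smul_snd, Prod.fst_add, Prod.snd_add, smul_eq_mul] at h ⊢
    have e : a * x.2 + b * y.2 - (a * x.1 + b * y.1) = a * (x.2 - x.1) + b * (y.2 - y.1) := by
      ring
    rw [e]
    linarith
  have h := logconc n β (fun y u => -y - Real.exp (u - y)) hc
    (fun y u v huv => by
      have := Real.exp_le_exp.2 (sub_le_sub_right huv y)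
      simp only
      linarith)
    (fun y => ⟨|y|, 0, le_rfl, fun u => by
      have h1 := Real.exp_pos (u - y)
      have h2 := neg_abs_le y
      linarith⟩)
  simp only [p_eq]
  exact h

theorem p_pow {s t a b : ℝ} (hs : 0 < s) (ht : 0 < t) (hst : s + t = 1) :
    p n β a ^ s * p n β b ^ t ≤ p n β (s * a + t * b) := by
  have h := (p_logconc n β).2 (mem_univ a) (mem_univ b) hs.le ht.le hst
  simp only [smul_eq_mul] at h
  have h1 := Real.exp_le_exp.2 h
  rw [Real.exp_log (p_pos n β _), Real.exp_add] at h1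
  rw [Real.rpow_def_of_pos (p_pos n β a), Real.rpow_def_of_pos (p_pos n β b),
    mul_comm (Real.log _) s, mul_comm (Real.log _) t]
  exact h1

/-- The tail functional `T(a) = E min (1, exp (F - a))`. -/
noncomputable def T (a : ℝ) : ℝ :=
  ∫ g, min 1 (Real.exp (freeEnergy n β g - a)) ∂(disorder n)

theorem T_eq (a : ℝ) : T n β a = ∫ g, Real.exp (freeEnergy n β g +
    min (-freeEnergy n β g) (-a)) ∂(disorder n) := by
  unfold T
  congr 1
  funext g
  rcases le_total (-freeEnergy n β g) (-a) with h | h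
  · rw [min_eq_left h, add_neg_cancel, Real.exp_zero, min_eq_left]
    rw [Real.one_le_exp_iff]
    linarith
  · rw [min_eq_right h, min_eq_right, sub_eq_add_neg]
    rw [Real.exp_le_one_iff]
    linarith

/-- `T` is log-concave -/
theorem T_logconc : ConcaveOn ℝ univ (fun a => Real.log (T n β a)) := by
  have hc : ConcaveOn ℝ univ (fun q : ℝ × ℝ => min (-q.2) (-q.1)) := by
    refine ⟨convex_univ, fun x _ y _ a b ha hb hab => ?_⟩
    simp only [Prod.smul_fst, Prod.smul_snd, Prod.fst_add, Prod.snd_add, smul_eq_mul]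
    refine le_min ?_ ?_
    · have h1 := mul_le_mul_of_nonneg_left (min_le_left (-x.2) (-x.1)) ha
      have h2 := mul_le_mul_of_nonneg_left (min_le_left (-y.2) (-y.1)) hb
      linarith
    · have h1 := mul_le_mul_of_nonneg_left (min_le_right (-x.2) (-x.1)) ha
      have h2 := mul_le_mul_of_nonneg_left (min_le_right (-y.2) (-y.1)) hb
      linarith
  have h := logconc n β (fun a u => min (-u) (-a)) hc
    (fun a u v huv => min_le_min (neg_le_neg huv) le_rfl)
    (fun a => ⟨|a|, 0, le_rfl, fun u => by
      have h1 := min_le_right (-u) (-a)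
      have h2 := neg_abs_le a
      linarith⟩)
  simp only [T_eq]
  exact h

end Vale.Agent.P146.H863
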