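import Vale.Agent.P146.H863.GumLC
import Vale.Agent.P146.H605.LogCc

/-!
# P146: integrals of the Gumbel density over intervals (helper863)
-/

open MeasureTheory Set ProbabilityTheory
open scoped ENNReal

namespace Vale.Agent.P146.H863

open Vale.Agent.P146.H605 Vale.Agent.P146.H605.Gauge

variable (n : ℕ) (β : ℝ)

/-- the integrand of the Gumbel density is at most one -/
theorem gum_le_one (u : ℝ) : Real.exp (u - Real.exp u) ≤ 1 := by
  rw [Real.exp_le_one_iff]
  linarith [Real.add_one_le_exp u]

theorem p_cont : Continuous (p n β) := by
  unfold p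
  refine continuous_of_dominated (bound := fun _ => (1 : ℝ)) (fun y => ?_) (fun y => ?_)
    (integrable_const _) ?_
  · exact (p_integrable n β y).aestronglyMeasurable
  · refine Filter.Eventually.of_forall fun g => ?_
    rw [Real.norm_eq_abs, abs_of_pos (Real.exp_pos _)]
    exact gum_le_one _
  · refine Filter.Eventually.of_forall fun g => ?_
    fun_prop

/-- `y ↦ exp (-exp (u - y))` has derivative the Gumbel density -/
theorem hasDerivAt_gum (u y : ℝ) : HasDerivAt (fun y => Real.exp (-Real.exp (u - y)))
    (Real.exp (u - y - Real.exp (u - y))) y := by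
  have h1 : HasDerivAt (fun y : ℝ => u - y) (-1) y := by
    simpa using (hasDerivAt_id y).const_sub u
  have h2 := (h1.exp.neg).exp
  refine h2.congr_deriv ?_
  rw [show u - y - Real.exp (u - y) = -Real.exp (u - y) + (u - y) by ring, Real.exp_add]
  simp only [Pi.neg_apply]
  ring

theorem int_gum (u a b : ℝ) : ∫ y in a..b, Real.exp (u - y - Real.exp (u - y)) =
    Real.exp (-Real.exp (u - b)) - Real.exp (-Real.exp (u - a)) := by
  refine intervalIntegral.integral_eq_sub_of_hasDerivAt (fun y _ => hasDerivAt_gum u y) ?_
  exact (by fun_prop : Continuous fun y => Real.exp (u - y - Real.exp (u - y))).intervalIntegrable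
    _ _

theorem gum_integrable (y : ℝ) :
    Integrable (fun g => Real.exp (-Real.exp (freeEnergy n β g - y))) (disorder n) := by
  refine Integrable.of_bound (C := 1) ?_ (Filter.Eventually.of_forall fun g => ?_)
  · have := cont_freeEnergy n β
    exact (by fun_prop : Continuous _).aestronglyMeasurable
  · rw [Real.norm_eq_abs, abs_of_pos (Real.exp_pos _), Real.exp_le_one_iff]
    linarith [Real.exp_pos (freeEnergy n β g - y)]

/-- the integral of the Gumbel density over an interval -/
theorem int_p {a b : ℝ} (hab : a ≤ b) : ∫ y in a..b, p n β y =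
    (∫ g, Real.exp (-Real.exp (freeEnergy n β g - b)) ∂(disorder n)) -
      ∫ g, Real.exp (-Real.exp (freeEnergy n β g - a)) ∂(disorder n) := by
  rw [← integral_sub (gum_integrable n β b) (gum_integrable n β a),
    intervalIntegral.integral_of_le hab]
  unfold p
  have hF := cont_freeEnergy n β
  have hint : Integrable (Function.uncurry fun (y : ℝ) (g : Pair n → ℝ) =>
      Real.exp (freeEnergy n β g - y - Real.exp (freeEnergy n β g - y)))
      ((volume.restrict (Ioc a b)).prod (disorder n)) := by
    refine Integrable.of_bound (C := 1) ?_ (Filter.Eventually.of_forall fun z => ?_)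
    · have hc : Continuous (Function.uncurry fun (y : ℝ) (g : Pair n → ℝ) =>
          Real.exp (freeEnergy n β g - y - Real.exp (freeEnergy n β g - y))) := by
        have h1 : Continuous fun z : ℝ × (Pair n → ℝ) => freeEnergy n β z.2 - z.1 :=
          (hF.comp continuous_snd).sub continuous_fst
        exact Real.continuous_exp.comp (h1.sub (Real.continuous_exp.comp h1))
      exact hc.aestronglyMeasurable
    · rw [Real.norm_eq_abs]
      simp only [Function.uncurry]
      rw [abs_of_pos (Real.exp_pos _)]
      exact gum_le_one _
  rw [integral_integral_swap hint]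
  refine integral_congr_ae (Filter.Eventually.of_forall fun g => ?_)
  simp only
  rw [← intervalIntegral.integral_of_le hab, int_gum]

/-- the integral of the Gumbel density over an interval of fixed length is log-concave -/
theorem int_lc {h s t : ℝ} (hh : 0 < h) (hs : 0 < s) (ht : 0 < t) (hst : s + t = 1) (a b : ℝ) :
    (∫ y in (a - h)..(a + h), p n β y) ^ s * (∫ y in (b - h)..(b + h), p n β y) ^ t ≤
      ∫ y in (s * a + t * b - h)..(s * a + t * b + h), p n β y := by
  have hp := p_cont n β
  have hpm : Measurable fun y => ENNReal.ofReal (p n β y) := hp.measurable.ennreal_ofReal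
  have hnn : ∀ c : ℝ, 0 ≤ ∫ y in (c - h)..(c + h), p n β y := fun c =>
    intervalIntegral.integral_nonneg (by linarith) fun y _ => (p_pos n β y).le
  have hI : ∀ c : ℝ, ∫⁻ y, (Ioc (c - h) (c + h)).indicator (fun y => ENNReal.ofReal (p n β y)) y =
      ENNReal.ofReal (∫ y in (c - h)..(c + h), p n β y) := by
    intro c
    rw [lintegral_indicator measurableSet_Ioc, intervalIntegral.integral_of_le (by linarith),
      ofReal_integral_eq_lintegral_ofReal]
    · exact (hp.intervalIntegrable (c - h) (c + h)).1
    · exact Filter.Eventually.of_forall fun y => (p_pos n β y).le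
  have key := Vale.Agent.P146.H605.LogCc.pl_one hs ht hst
    (fun y => (Ioc (a - h) (a + h)).indicator (fun y => ENNReal.ofReal (p n β y)) y)
    (fun y => (Ioc (b - h) (b + h)).indicator (fun y => ENNReal.ofReal (p n β y)) y)
    (fun y => (Ioc (s * a + t * b - h) (s * a + t * b + h)).indicator
      (fun y => ENNReal.ofReal (p n β y)) y)
    (hpm.indicator measurableSet_Ioc) (hpm.indicator measurableSet_Ioc)
    (hpm.indicator measurableSet_Ioc) (fun x y => by
      by_cases hx : x ∈ Ioc (a - h) (a + h)
      · by_cases hy : y ∈ Ioc (b - h) (b + h)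
        · have hz : s * x + t * y ∈ Ioc (s * a + t * b - h) (s * a + t * b + h) := by
            have hs' : s = 1 - t := by linarith
            constructor
            · have h1 := mul_lt_mul_of_pos_left hx.1 hs
              have h2 := mul_lt_mul_of_pos_left hy.1 ht
              have h3 : s * (a - h) + t * (b - h) = s * a + t * b - h := by
                rw [hs']
                ring
              linarith
            · have h1 := mul_le_mul_of_nonneg_left hx.2 hs.le
              have h2 := mul_le_mul_of_nonneg_left hy.2 ht.le
              have h3 : s * (a + h) + t * (b + h) = s * a + t * b + h := by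
                rw [hs']
                ring
              linarith
          rw [indicator_of_mem hx, indicator_of_mem hy, indicator_of_mem hz,
            ENNReal.ofReal_rpow_of_pos (p_pos n β x), ENNReal.ofReal_rpow_of_pos (p_pos n β y),
            ← ENNReal.ofReal_mul (Real.rpow_nonneg (p_pos n β x).le _)]
          exact ENNReal.ofReal_le_ofReal (p_pow n β hs ht hst)
        · rw [indicator_of_notMem hy, ENNReal.zero_rpow_of_pos ht, mul_zero]
          exact zero_le
      · rw [indicator_of_notMem hx, ENNReal.zero_rpow_of_pos hs, zero_mul]
        exact zero_le)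
  simp only [hI] at key
  rw [ENNReal.ofReal_rpow_of_nonneg (hnn a) hs.le, ENNReal.ofReal_rpow_of_nonneg (hnn b) ht.le,
    ← ENNReal.ofReal_mul (Real.rpow_nonneg (hnn a) _)] at key
  exact (ENNReal.ofReal_le_ofReal_iff (hnn _)).1 key

end Vale.Agent.P146.H863
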