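import Vale.Agent.P146.H863.Gau

/-!
# P146: the two families of the doubling step (helper863)

`SK_{2n}` on two blocks of `n` sites, and two independent `SK_n` with one common Gaussian variable:
the Gram matrices differ by `β²/(4n) (n R_1 - n R_2)²`.
-/

open MeasureTheory ProbabilityTheory

namespace Vale.Agent.P146.H863.D29

open Vale.Agent.P146 Vale.Agent.P146.H501

variable {n : ℕ}

theorem pair_sum (F : Fin n → Fin n → ℝ) :
    ∑ p : Pair n, F p.1.1 p.1.2 = ∑ i, ∑ j, if i < j then F i j else 0 := by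
  rw [← Fintype.sum_prod_type' (f := fun i j : Fin n => if i < j then F i j else 0),
    ← Finset.sum_filter]
  symm
  exact Finset.sum_subtype _ (fun q => by simp) (fun q : Fin n × Fin n => F q.1 q.2)

theorem pair_sq (U : Fin n → ℝ) :
    ∑ p : Pair n, U p.1.1 * U p.1.2 = ((∑ i, U i) ^ 2 - ∑ i, U i * U i) / 2 := by
  rw [pair_sum fun i j => U i * U j]
  have h1 : (∑ i, U i) ^ 2 = ∑ i, ∑ j, U i * U j := by
    rw [sq, Finset.sum_mul_sum]
  have h2 : ∑ i, ∑ j, U i * U j = (∑ i, ∑ j, if i < j then U i * U j else 0) +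
      (∑ i, ∑ j, if j < i then U i * U j else 0) + ∑ i, U i * U i := by
    rw [← Finset.sum_add_distrib, ← Finset.sum_add_distrib]
    apply Finset.sum_congr rfl
    intro i _
    have h3 : U i * U i = ∑ j, if i = j then U i * U j else 0 := by
      rw [Finset.sum_ite_eq]
      simp
    rw [h3, ← Finset.sum_add_distrib, ← Finset.sum_add_distrib]
    apply Finset.sum_congr rfl
    intro j _
    rcases lt_trichotomy i j with h | h | h
    · rw [if_pos h, if_neg h.not_gt, if_neg h.ne]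
      ring
    · subst h
      simp
    · rw [if_neg h.not_gt, if_pos h, if_neg h.ne']
      ring
  have h4 : (∑ i, ∑ j, if j < i then U i * U j else 0) =
      ∑ i, ∑ j, if i < j then U i * U j else 0 := by
    rw [Finset.sum_comm]
    apply Finset.sum_congr rfl
    intro i _
    apply Finset.sum_congr rfl
    intro j _
    rw [mul_comm]
  rw [h1, h2, h4]
  ring

/-- `n` times the overlap -/
noncomputable def ov (σ τ : Fin n → ℤˣ) : ℝ := ∑ i, sp σ i * sp τ i

lemma abs_ov (σ τ : Fin n → ℤˣ) : |ov σ τ| ≤ n := by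
  unfold ov
  refine (Finset.abs_sum_le_sum_abs _ _).trans ?_
  simp [abs_mul, abs_sp]

lemma ov_self (σ : Fin n → ℤˣ) : ov σ σ = n := by
  unfold ov
  simp [sp_sq]

theorem ska_gram (hn : 1 ≤ n) (β : ℝ) (σ τ : Fin n → ℤˣ) :
    ∑ p, ska n β σ p * ska n β τ p = β ^ 2 / (2 * n) * (ov σ τ ^ 2 - n) := by
  have hn0 : (0 : ℝ) < n := by exact_mod_cast hn
  have h1 : ∀ p : Pair n, ska n β σ p * ska n β τ p =
      β ^ 2 / n * ((sp σ p.1.1 * sp τ p.1.1) * (sp σ p.1.2 * sp τ p.1.2)) := by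
    intro p
    unfold ska
    rw [chi_ps, chi_ps]
    have h2 : (β / Real.sqrt n) * (β / Real.sqrt n) = β ^ 2 / n := by
      rw [div_mul_div_comm, Real.mul_self_sqrt hn0.le, sq]
    calc β / √↑n * (sp σ p.1.1 * sp σ p.1.2) * (β / √↑n * (sp τ p.1.1 * sp τ p.1.2)) =
        ((β / √↑n) * (β / √↑n)) * ((sp σ p.1.1 * sp τ p.1.1) * (sp σ p.1.2 * sp τ p.1.2)) := by
          ring
      _ = _ := by rw [h2]
  rw [Finset.sum_congr rfl fun p _ => h1 p, ← Finset.mul_sum,
    pair_sq fun i => sp σ i * sp τ i]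
  have h3 : ∑ i, sp σ i * sp τ i * (sp σ i * sp τ i) = n := by
    have : ∀ i, sp σ i * sp τ i * (sp σ i * sp τ i) = 1 := by
      intro i
      have e1 := sp_sq σ i
      have e2 := sp_sq τ i
      calc sp σ i * sp τ i * (sp σ i * sp τ i) = (sp σ i * sp σ i) * (sp τ i * sp τ i) := by ring
        _ = 1 := by rw [e1, e2, one_mul]
    simp [this]
  rw [h3]
  unfold ov
  field_simp

/-! ### the configurations of `2n` sites -/

/-- the configurations of two blocks -/
def E2 (n : ℕ) : (Fin n → ℤˣ) × (Fin n → ℤˣ) ≃ (Fin (n + n) → ℤˣ) := Fin.appendEquiv n n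

lemma ov_E2 (s t : (Fin n → ℤˣ) × (Fin n → ℤˣ)) :
    ov (E2 n s) (E2 n t) = ov s.1 t.1 + ov s.2 t.2 := by
  have h : ∀ u : (Fin n → ℤˣ) × (Fin n → ℤˣ), E2 n u = Fin.append u.1 u.2 := fun u => rfl
  unfold ov sp
  rw [h, h, Fin.sum_univ_add]
  simp only [Fin.append_left, Fin.append_right]

lemma E2_one : E2 n (1, 1) = 1 := by
  have h : E2 n (1, 1) = Fin.append (1 : Fin n → ℤˣ) (1 : Fin n → ℤˣ) := rfl
  rw [h]
  funext i
  refine Fin.addCases (fun j => ?_) (fun j => ?_) i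
  · rw [Fin.append_left]; rfl
  · rw [Fin.append_right]; rfl

/-- the family of `SK_{2n}` on two blocks -/
noncomputable def a2 (n : ℕ) (β : ℝ) (s : (Fin n → ℤˣ) × (Fin n → ℤˣ)) : Pair (n + n) → ℝ :=
  ska (n + n) β (E2 n s)

/-- the family of two independent `SK_n` with a common Gaussian variable -/
noncomputable def b2 (n : ℕ) (β : ℝ) (s : (Fin n → ℤˣ) × (Fin n → ℤˣ)) :
    Pair n ⊕ (Pair n ⊕ Unit) → ℝ :=
  Sum.elim (ska n β s.1) (Sum.elim (ska n β s.2) fun _ => β / Real.sqrt 2)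

/-- the difference of the Gram matrices -/
noncomputable def gap (n : ℕ) (β : ℝ) (s t : (Fin n → ℤˣ) × (Fin n → ℤˣ)) : ℝ :=
  β ^ 2 / (4 * n) * (ov s.1 t.1 - ov s.2 t.2) ^ 2

lemma gap_nonneg (β : ℝ) (s t : (Fin n → ℤˣ) × (Fin n → ℤˣ)) : 0 ≤ gap n β s t := by
  unfold gap
  positivity

theorem gram_gap (hn : 1 ≤ n) (β : ℝ) (s t : (Fin n → ℤˣ) × (Fin n → ℤˣ)) :
    ∑ e, b2 n β s e * b2 n β t e = ∑ e, a2 n β s e * a2 n β t e + gap n β s t := by
  have hn0 : (0 : ℝ) < n := by exact_mod_cast hn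
  rw [Fintype.sum_sum_type, Fintype.sum_sum_type]
  unfold b2 a2 gap
  simp only [Sum.elim_inl, Sum.elim_inr]
  rw [ska_gram hn, ska_gram hn, ska_gram (by omega), ov_E2]
  have h2 : β / Real.sqrt 2 * (β / Real.sqrt 2) = β ^ 2 / 2 := by
    rw [div_mul_div_comm, Real.mul_self_sqrt (by norm_num), sq]
  simp only [Finset.univ_unique, Finset.sum_const, Finset.card_singleton, one_smul]
  rw [h2]
  push_cast
  field_simp
  ring

lemma gap_self (β : ℝ) (s : (Fin n → ℤˣ) × (Fin n → ℤˣ)) : gap n β s s = 0 := by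
  unfold gap
  rw [ov_self, ov_self]
  simp

lemma gap_diag (hn : 1 ≤ n) (β : ℝ) (s : (Fin n → ℤˣ) × (Fin n → ℤˣ)) :
    ∑ e, a2 n β s e ^ 2 = ∑ e, b2 n β s e ^ 2 := by
  have h := gram_gap hn β s s
  rw [gap_self, add_zero] at h
  simp only [sq]
  exact h.symm

lemma gram_le (hn : 1 ≤ n) (β : ℝ) (s t : (Fin n → ℤˣ) × (Fin n → ℤˣ)) :
    ∑ e, a2 n β s e * a2 n β t e ≤ ∑ e, b2 n β s e * b2 n β t e := by
  rw [gram_gap hn]
  linarith [gap_nonneg β s t]

/-- reindexing of the planted moment -/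
theorem np_equiv {ι S T : Type*} [Fintype ι] [Fintype S] [Fintype T] (p : ℝ) (a : T → ι → ℝ)
    (e : S ≃ T) (s0 : S) :
    Np p (fun s => a (e s)) s0 (fun _ => 0) = Np p a (e s0) (fun _ => 0) := by
  unfold Np
  refine integral_congr_ae (Filter.Eventually.of_forall fun g => ?_)
  simp only
  congr 1
  unfold zp zz wt
  congr 3
  exact Equiv.sum_comp e fun t => Real.exp (∑ i, a t i * g i + 0)

theorem np_a2 (p β : ℝ) :
    Np p (ska (n + n) β) 1 (fun _ => 0) = Np p (a2 n β) (1, 1) (fun _ => 0) := by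
  have h := np_equiv p (ska (n + n) β) (E2 n) (1, 1)
  rw [E2_one] at h
  exact h.symm

/-! ### Fubini -/

section fub

variable {ι κ : Type*} [Fintype ι] [Fintype κ]

theorem int_sum_type {F : (ι ⊕ κ → ℝ) → ℝ} (hF : Integrable F (gpi (ι ⊕ κ))) :
    ∫ g, F g ∂(gpi (ι ⊕ κ)) = ∫ u, ∫ v, F (Sum.elim u v) ∂(gpi κ) ∂(gpi ι) := by
  have hmp := measurePreserving_sumPiEquivProdPi_symm (X := fun _ : ι ⊕ κ => ℝ)
    (fun _ => gaussianReal 0 1)
  set T := (MeasurableEquiv.sumPiEquivProdPi (fun _ : ι ⊕ κ => ℝ)).symm with hT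
  have h1 : ∫ g, F g ∂(gpi (ι ⊕ κ)) = ∫ q, F (T q) ∂((gpi ι).prod (gpi κ)) :=
    (hmp.integral_comp' F).symm
  have h2 : Integrable (fun q => F (T q)) ((gpi ι).prod (gpi κ)) :=
    (hmp.integrable_comp_emb T.measurableEmbedding).2 hF
  rw [h1, integral_prod _ h2]
  rfl

theorem dom_slice {F : (ι ⊕ κ → ℝ) → ℝ} (hF : Dom F) (u : ι → ℝ) :
    Dom (fun v : κ → ℝ => F (Sum.elim u v)) := by
  obtain ⟨C, c, hC, hc, hb⟩ := hF.bound
  refine ⟨hF.cont.comp ?_, C * Real.exp (c * ∑ i, |u i|), c, by positivity, hc, fun v => ?_⟩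
  · refine continuous_pi fun e => ?_
    rcases e with e | e
    · simp only [Sum.elim_inl]; exact continuous_const
    · simp only [Sum.elim_inr]; exact continuous_apply e
  · refine (hb _).trans (le_of_eq ?_)
    rw [Fintype.sum_sum_type]
    simp only [Sum.elim_inl, Sum.elim_inr]
    rw [mul_add, Real.exp_add, mul_assoc]

end fub

/-- the two block integrand -/
noncomputable def Phi (n : ℕ) (p β : ℝ) (f : (Fin n → ℤˣ) → (Fin n → ℤˣ) → ℝ)
    (u v : Pair n → ℝ) : ℝ :=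
  Real.exp (∑ i, ska n β 1 i * u i) * Real.exp (∑ i, ska n β 1 i * v i) *
    Real.exp (-p * Real.log (∑ s, ∑ t,
      Real.exp (∑ i, ska n β s i * u i + ∑ i, ska n β t i * v i - f s t)))

lemma lin_b2 (β : ℝ) (s : (Fin n → ℤˣ) × (Fin n → ℤˣ)) (u v : Pair n → ℝ) (w : Unit → ℝ) :
    ∑ e, b2 n β s e * (Sum.elim u (Sum.elim v w)) e =
      ∑ i, ska n β s.1 i * u i + ∑ i, ska n β s.2 i * v i + β / Real.sqrt 2 * w () := by
  rw [Fintype.sum_sum_type, Fintype.sum_sum_type]
  unfold b2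
  simp only [Sum.elim_inl, Sum.elim_inr, Finset.univ_unique, Finset.sum_singleton]
  rw [add_assoc]

lemma b2_split (p β : ℝ) (f : (Fin n → ℤˣ) → (Fin n → ℤˣ) → ℝ) (u v : Pair n → ℝ)
    (w : Unit → ℝ) :
    Real.exp (∑ e, b2 n β (1, 1) e * (Sum.elim u (Sum.elim v w)) e) *
      zp (-p) (b2 n β) (fun s => -f s.1 s.2) (Sum.elim u (Sum.elim v w)) =
    Phi n p β f u v * Real.exp ((1 - p) * (β / Real.sqrt 2) * w ()) := by
  have hz : zz (b2 n β) (fun s => -f s.1 s.2) (Sum.elim u (Sum.elim v w)) =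
      Real.exp (β / Real.sqrt 2 * w ()) * ∑ s, ∑ t,
      Real.exp (∑ i, ska n β s i * u i + ∑ i, ska n β t i * v i - f s t) := by
    unfold zz wt
    rw [Fintype.sum_prod_type, Finset.mul_sum]
    refine Finset.sum_congr rfl fun s _ => ?_
    rw [Finset.mul_sum]
    refine Finset.sum_congr rfl fun t _ => ?_
    rw [lin_b2, ← Real.exp_add]
    congr 1
    simp only
    ring
  have hpos : 0 < ∑ s : Fin n → ℤˣ, ∑ t : Fin n → ℤˣ,
      Real.exp (∑ i, ska n β s i * u i + ∑ i, ska n β t i * v i - f s t) :=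
    Finset.sum_pos (fun s _ => Finset.sum_pos (fun t _ => Real.exp_pos _)
      Finset.univ_nonempty) Finset.univ_nonempty
  unfold zp Phi
  rw [hz, Real.log_mul (Real.exp_pos _).ne' hpos.ne', Real.log_exp, lin_b2]
  simp only
  rw [← Real.exp_add, ← Real.exp_add, ← Real.exp_add, ← Real.exp_add]
  congr 1
  ring

lemma int_exp_unit (c : ℝ) : ∫ w, Real.exp (c * w ()) ∂(gpi Unit) = Real.exp (c ^ 2 / 2) := by
  have h := H425.integral_shift (ι := Unit) (fun _ => -c) (fun _ => Real.exp (c ^ 2 / 2))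
  simp only [Finset.univ_unique, Finset.sum_singleton] at h
  rw [integral_const, probReal_univ, one_smul] at h
  rw [h]
  unfold gpi
  refine integral_congr_ae (Filter.Eventually.of_forall fun w => ?_)
  simp only
  rw [← Real.exp_add]
  congr 1
  have : (default : Unit) = () := rfl
  rw [this]
  ring

theorem b2_fubini (p β : ℝ) (f : (Fin n → ℤˣ) → (Fin n → ℤˣ) → ℝ) :
    Np p (b2 n β) (1, 1) (fun s => -f s.1 s.2) =
      Real.exp (((1 - p) * (β / Real.sqrt 2)) ^ 2 / 2) *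
        ∫ u, ∫ v, Phi n p β f u v ∂(gpi (Pair n)) ∂(gpi (Pair n)) := by
  unfold Np
  have hD := np_dom p (b2 n β) (1, 1) (fun s => -f s.1 s.2)
  rw [int_sum_type hD.integrable, ← integral_const_mul]
  refine integral_congr_ae (Filter.Eventually.of_forall fun u => ?_)
  simp only
  rw [int_sum_type (dom_slice hD u).integrable, ← integral_const_mul]
  refine integral_congr_ae (Filter.Eventually.of_forall fun v => ?_)
  simp only
  simp_rw [b2_split]
  rw [integral_const_mul, int_exp_unit, mul_comm]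

end Vale.Agent.P146.H863.D29
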