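import Vale.Agent.P146.H863.Two
import Vale.Agent.P146.H329.PKah
import Vale.Agent.P146.H291.Two
import Vale.Agent.P146.H773.Pk2

/-!
# P146: the doubling inequality (helper863)

`log E Z_{2n}^x ≤ 2 log E Z_n^x + C (1 + (θ n)^{1/3}) (1 + log n)`, from a comparison of the planted
moments with the penalty `θ β²/(4n) (n R_1 - n R_2)²`; `θ = 1` is Kahane's inequality.
-/

open MeasureTheory ProbabilityTheory

namespace Vale.Agent.P146.H863.D29

open Vale.Agent.P146 Vale.Agent.P146.H501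

variable {n : ℕ}

/-! ### the cells -/

lemma gap_one (β : ℝ) (s t : Fin n → ℤˣ) :
    gap n β (1, 1) (s, t) = β ^ 2 / (4 * n) * (ov 1 s - ov 1 t) ^ 2 := rfl

lemma gap_le (hn : 1 ≤ n) (β : ℝ) (s t : Fin n → ℤˣ) : gap n β (1, 1) (s, t) ≤ β ^ 2 * n := by
  have hn0 : (0 : ℝ) < n := by exact_mod_cast hn
  rw [gap_one]
  have h1 := abs_le.1 (abs_ov (1 : Fin n → ℤˣ) s)
  have h2 := abs_le.1 (abs_ov (1 : Fin n → ℤˣ) t)
  have h3 : (ov 1 s - ov 1 t) ^ 2 ≤ (2 * n) ^ 2 := by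
    refine sq_le_sq' ?_ ?_ <;> linarith
  calc β ^ 2 / (4 * n) * (ov 1 s - ov 1 t) ^ 2 ≤ β ^ 2 / (4 * n) * (2 * n) ^ 2 :=
        mul_le_mul_of_nonneg_left h3 (by positivity)
    _ = β ^ 2 * n := by field_simp; ring

/-- the cell of a configuration -/
noncomputable def cell (n K : ℕ) (hK : 1 ≤ K) (s : Fin n → ℤˣ) : Fin K :=
  ⟨⌊(ov 1 s + n) * K / (2 * n + 1)⌋₊, by
    have h1 := abs_le.1 (abs_ov (1 : Fin n → ℤˣ) s)
    have hn0 : (0 : ℝ) ≤ n := Nat.cast_nonneg n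
    have hK0 : (0 : ℝ) < K := by exact_mod_cast hK
    have h0 : 0 ≤ (ov 1 s + n) * K / (2 * n + 1) :=
      div_nonneg (mul_nonneg (by linarith) hK0.le) (by linarith)
    rw [Nat.floor_lt h0, div_lt_iff₀ (by linarith)]
    nlinarith⟩

lemma gap_cell (hn : 1 ≤ n) {K : ℕ} (hK : 1 ≤ K) (β : ℝ) {s t : Fin n → ℤˣ}
    (h : cell n K hK s = cell n K hK t) :
    gap n β (1, 1) (s, t) ≤ 9 * β ^ 2 * n / (4 * K ^ 2) := by
  have hn1 : (1 : ℝ) ≤ n := by exact_mod_cast hn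
  have hn0 : (0 : ℝ) < n := by linarith
  have hK0 : (0 : ℝ) < K := by exact_mod_cast hK
  have hw : (0 : ℝ) < 2 * n + 1 := by linarith
  have e : ∀ r : Fin n → ℤˣ, 0 ≤ (ov 1 r + n) * K / (2 * n + 1) := fun r =>
    div_nonneg (mul_nonneg (by linarith [(abs_le.1 (abs_ov (1 : Fin n → ℤˣ) r)).1]) hK0.le) hw.le
  have hfl : ⌊(ov 1 s + n) * K / (2 * n + 1)⌋₊ = ⌊(ov 1 t + n) * K / (2 * n + 1)⌋₊ :=
    congrArg Fin.val h
  have s1 := Nat.floor_le (e s)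
  have s2 := Nat.lt_floor_add_one ((ov 1 s + n) * K / (2 * n + 1))
  have t1 := Nat.floor_le (e t)
  have t2 := Nat.lt_floor_add_one ((ov 1 t + n) * K / (2 * n + 1))
  rw [hfl] at s1 s2
  have d1 : (ov 1 s + n) * K / (2 * n + 1) - (ov 1 t + n) * K / (2 * n + 1) < 1 := by linarith
  have d2 : (ov 1 t + n) * K / (2 * n + 1) - (ov 1 s + n) * K / (2 * n + 1) < 1 := by linarith
  rw [← sub_div, div_lt_one hw] at d1 d2
  have d3 : (ov 1 s - ov 1 t) * K ≤ 3 * n := by nlinarith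
  have d4 : (ov 1 t - ov 1 s) * K ≤ 3 * n := by nlinarith
  have d5 : ((ov 1 s - ov 1 t) * K) ^ 2 ≤ (3 * n) ^ 2 := by
    refine sq_le_sq' ?_ ?_ <;> linarith
  rw [gap_one]
  have d6 : (ov 1 s - ov 1 t) ^ 2 ≤ 9 * n ^ 2 / K ^ 2 := by
    rw [le_div_iff₀ (by positivity)]
    have d7 : (ov 1 s - ov 1 t) ^ 2 * (K : ℝ) ^ 2 = ((ov 1 s - ov 1 t) * K) ^ 2 := by ring
    have d8 : (3 * (n : ℝ)) ^ 2 = 9 * (n : ℝ) ^ 2 := by ring
    rw [d7, ← d8]
    exact d5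
  calc β ^ 2 / (4 * n) * (ov 1 s - ov 1 t) ^ 2 ≤ β ^ 2 / (4 * n) * (9 * n ^ 2 / K ^ 2) :=
        mul_le_mul_of_nonneg_left d6 (by positivity)
    _ = 9 * β ^ 2 * n / (4 * K ^ 2) := by field_simp

/-! ### the two block integral -/

lemma phi_eq (p β : ℝ) (f : (Fin n → ℤˣ) → (Fin n → ℤˣ) → ℝ) (u v : Pair n → ℝ) :
    Phi n p β f u v = Real.exp (∑ i, ska n β 1 i * v i) * Real.exp (∑ i, ska n β 1 i * u i) *
      Real.exp (-p * Real.log (∑ s, ∑ t,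
        Real.exp (∑ i, ska n β s i * v i + ∑ i, ska n β t i * u i - f t s))) := by
  unfold Phi
  rw [Finset.sum_comm, mul_comm (Real.exp (∑ i, ska n β 1 i * u i))]
  congr 3
  congr 1
  refine Finset.sum_congr rfl fun s _ => Finset.sum_congr rfl fun t _ => ?_
  congr 1
  ring

theorem phi_le (hn : 1 ≤ n) {p : ℝ} (hp : 0 ≤ p) (β : ℝ) {θ : ℝ} (hθ : 0 ≤ θ) {K : ℕ}
    (hK : 1 ≤ K) :
    ∫ u, ∫ v, Phi n p β (fun s t => θ * gap n β (1, 1) (s, t)) u v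
        ∂(gpi (Pair n)) ∂(gpi (Pair n)) ≤
      Real.exp (p * (θ * (9 * β ^ 2 * n / (4 * K ^ 2)) + 1)) * (K : ℝ) ^ p *
        ((⌊θ * (β ^ 2 * n)⌋₊ : ℝ) + 1) ^ K * Np p (ska n β) 1 (fun _ => 0) ^ 2 := by
  obtain ⟨P, hP0, hP1, hP⟩ := H773.Pk.np_le hp (ska n β) 1
  have key := H291.two_le hp (a := ska n β) (s0 := 1) (P := P) ⟨hP0, hP1, hP⟩
    (cell n K hK) (f := fun s t => θ * gap n β (1, 1) (t, s)) (M := θ * (β ^ 2 * n))
    (δ := θ * (9 * β ^ 2 * n / (4 * K ^ 2))) (by positivity) (by positivity)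
    (fun s t => mul_le_mul_of_nonneg_left (gap_le hn β t s) hθ)
    (fun s t h => mul_le_mul_of_nonneg_left (gap_cell hn hK β h.symm) hθ)
  rw [Fintype.card_fin] at key
  simp_rw [phi_eq]
  exact key

/-! ### the doubling inequality -/

/-- the moment of the free energy is positive -/
lemma mom_pos (n : ℕ) (β x : ℝ) : 0 < ∫ g, Real.exp (x * freeEnergy n β g) ∂(disorder n) := by
  have h : Dom (zp x (ska n β) (fun _ => 0)) := zp_dom _ _ _
  have h2 : Integrable (fun g => Real.exp (x * freeEnergy n β g)) (disorder n) := by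
    refine h.integrable.congr (Filter.Eventually.of_forall fun g => ?_)
    simp only
    unfold zp
    rw [freeEnergy_eq]
  have : IsProbabilityMeasure (disorder n) :=
    inferInstanceAs (IsProbabilityMeasure (gpi (Pair n)))
  exact integral_exp_pos h2

/-- the step from the comparison of the planted moments -/
theorem mom_le (hn : 1 ≤ n) (β : ℝ) {x : ℝ} (hx1 : x ≤ 1) {θ : ℝ} (hθ : 0 ≤ θ)
    {K : ℕ} (hK : 1 ≤ K)
    (h : Np (1 - x) (a2 n β) (1, 1) (fun _ => 0) ≤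
      Np (1 - x) (b2 n β) (1, 1) (fun s => -(θ * gap n β (1, 1) s))) :
    ∫ g, Real.exp (x * freeEnergy (n + n) β g) ∂(disorder (n + n)) ≤
      Real.exp ((x * (β / Real.sqrt 2)) ^ 2 / 2) *
        (Real.exp ((1 - x) * (θ * (9 * β ^ 2 * n / (4 * K ^ 2)) + 1)) * (K : ℝ) ^ (1 - x) *
        ((⌊θ * (β ^ 2 * n)⌋₊ : ℝ) + 1) ^ K) *
        (∫ g, Real.exp (x * freeEnergy n β g) ∂(disorder n)) ^ 2 := by
  rw [gauge_free, gauge_free, np_a2]
  have hcard : (Fintype.card (Fin (n + n) → ℤˣ) : ℝ) =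
      (Fintype.card (Fin n → ℤˣ) : ℝ) * Fintype.card (Fin n → ℤˣ) := by
    rw [← Fintype.card_congr (E2 n), Fintype.card_prod]
    push_cast
    ring
  rw [hcard]
  have h1 := b2_fubini (n := n) (1 - x) β (fun s t => θ * gap n β (1, 1) (s, t))
  have h2 := phi_le hn (p := 1 - x) (by linarith) β hθ hK
  have e1 : (1 - (1 - x)) = x := by ring
  rw [e1] at h1
  have h3 : Np (1 - x) (a2 n β) (1, 1) (fun _ => 0) ≤
      Real.exp ((x * (β / Real.sqrt 2)) ^ 2 / 2) *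
        (Real.exp ((1 - x) * (θ * (9 * β ^ 2 * n / (4 * K ^ 2)) + 1)) * (K : ℝ) ^ (1 - x) *
        ((⌊θ * (β ^ 2 * n)⌋₊ : ℝ) + 1) ^ K * Np (1 - x) (ska n β) 1 (fun _ => 0) ^ 2) := by
    refine h.trans ?_
    rw [show (fun s : (Fin n → ℤˣ) × (Fin n → ℤˣ) => -(θ * gap n β (1, 1) s)) =
      fun s => -(θ * gap n β (1, 1) (s.1, s.2)) from rfl, h1]
    exact mul_le_mul_of_nonneg_left h2 (Real.exp_pos _).le
  calc (Fintype.card (Fin n → ℤˣ) : ℝ) * Fintype.card (Fin n → ℤˣ) *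
        Np (1 - x) (a2 n β) (1, 1) (fun _ => 0) ≤ _ :=
        mul_le_mul_of_nonneg_left h3 (by positivity)
    _ = _ := by ring

lemma num_fin {B u L l : ℝ} (hB : 0 ≤ B) (hu : 0 ≤ u) (hL : 0 ≤ L) (hl : 0 ≤ l) :
    B / 4 + (9 / 4 * B * u + 1 + u + (u + 1) * (L + l)) ≤
      (B / 4 + 9 / 4 * B + 1 + L + 1) * ((1 + u) * (1 + l)) := by
  have p1 : 0 ≤ u * l := mul_nonneg hu hl
  have p2 : 0 ≤ B * u := mul_nonneg hB hu
  have p3 : 0 ≤ B * l := mul_nonneg hB hl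
  have p4 : 0 ≤ B * u * l := mul_nonneg p2 hl
  have p5 : 0 ≤ L * l := mul_nonneg hL hl
  have p6 : 0 ≤ L * u * l := mul_nonneg (mul_nonneg hL hu) hl
  have e : (B / 4 + 9 / 4 * B + 1 + L + 1) * ((1 + u) * (1 + l)) =
      B / 4 + (9 / 4 * B * u + 1 + u + (u + 1) * (L + l)) +
        (9 / 4 * B + B * u / 4 + 5 / 2 * (B * l) + 5 / 2 * (B * u * l) + 1 + u + l +
          u * l + L * l + L * u * l) := by ring
  rw [e]
  have : 0 ≤ 9 / 4 * B + B * u / 4 + 5 / 2 * (B * l) + 5 / 2 * (B * u * l) + 1 + u + l +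
          u * l + L * l + L * u * l := by positivity
  linarith

/-- **The doubling inequality**, from the comparison of the planted moments with the penalty
`θ`. -/
theorem dbl_of (β : ℝ) : ∃ C : ℝ, 0 ≤ C ∧ ∀ n : ℕ, 1 ≤ n → ∀ x : ℝ, 0 < x → x ≤ 1 → ∀ θ : ℝ,
    0 ≤ θ → θ ≤ 1 →
    Np (1 - x) (a2 n β) (1, 1) (fun _ => 0) ≤
      Np (1 - x) (b2 n β) (1, 1) (fun s => -(θ * gap n β (1, 1) s)) →
    Real.log (∫ g, Real.exp (x * freeEnergy (2 * n) β g) ∂(disorder (2 * n))) ≤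
      2 * Real.log (∫ g, Real.exp (x * freeEnergy n β g) ∂(disorder n)) +
        C * ((1 + (θ * n) ^ (1 / 3 : ℝ)) * (1 + Real.log n)) := by
  have hlb : 0 ≤ Real.log (β ^ 2 + 1) := Real.log_nonneg (by nlinarith [sq_nonneg β])
  refine ⟨β ^ 2 / 4 + 9 / 4 * β ^ 2 + 1 + Real.log (β ^ 2 + 1) + 1, by positivity,
    fun n hn x hx0 hx1 θ hθ hθ1 h => ?_⟩
  rw [two_mul]
  have hn1 : (1 : ℝ) ≤ n := by exact_mod_cast hn
  have hn0 : (0 : ℝ) < n := by linarith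
  obtain ⟨u, hu⟩ : ∃ u : ℝ, u = (θ * n) ^ (1 / 3 : ℝ) := ⟨_, rfl⟩
  have hθn : 0 ≤ θ * n := by positivity
  have hu0 : 0 ≤ u := by rw [hu]; positivity
  have hu3 : u ^ 3 = θ * n := by
    rw [hu, ← Real.rpow_natCast, ← Real.rpow_mul hθn]
    norm_num
  obtain ⟨K, hKd⟩ : ∃ K : ℕ, K = ⌊u⌋₊ + 1 := ⟨_, rfl⟩
  have hK : 1 ≤ K := by omega
  have hKu : u ≤ K := by
    rw [hKd]; push_cast
    exact (Nat.lt_floor_add_one u).le
  have hKu1 : (K : ℝ) ≤ u + 1 := by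
    rw [hKd]; push_cast
    linarith [Nat.floor_le hu0]
  have hK0 : (0 : ℝ) < K := by exact_mod_cast hK
  have key := mom_le hn β hx1 hθ hK h
  rw [← hu]
  have hI1 := mom_pos n β x
  have hI2 := mom_pos (n + n) β x
  have hF : (0 : ℝ) < (⌊θ * (β ^ 2 * n)⌋₊ : ℝ) + 1 := by positivity
  have hlog := Real.log_le_log hI2 key
  rw [Real.log_mul (by positivity) (by positivity), Real.log_mul (by positivity) (by positivity),
    Real.log_mul (by positivity) (by positivity), Real.log_mul (by positivity) (by positivity),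
    Real.log_exp, Real.log_exp, Real.log_rpow hK0, Real.log_pow, Real.log_pow] at hlog
  -- the numbers
  have n1 : (x * (β / Real.sqrt 2)) ^ 2 / 2 ≤ β ^ 2 / 4 := by
    have : (x * (β / Real.sqrt 2)) ^ 2 = x ^ 2 * (β ^ 2 / 2) := by
      rw [mul_pow, div_pow, Real.sq_sqrt (by norm_num)]
    rw [this]
    have hx2 : x ^ 2 ≤ 1 := pow_le_one₀ hx0.le hx1
    nlinarith [sq_nonneg β]
  have n2 : θ * (9 * β ^ 2 * n / (4 * K ^ 2)) ≤ 9 / 4 * β ^ 2 * u := by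
    have h1 : θ * (9 * β ^ 2 * n / (4 * K ^ 2)) = 9 / 4 * β ^ 2 * (u ^ 3 / K ^ 2) := by
      rw [hu3]; field_simp
    rw [h1]
    refine mul_le_mul_of_nonneg_left ?_ (by positivity)
    rw [div_le_iff₀ (by positivity)]
    have h2 : u ^ 2 ≤ (K : ℝ) ^ 2 := pow_le_pow_left₀ hu0 hKu 2
    calc u ^ 3 = u * u ^ 2 := by ring
      _ ≤ u * K ^ 2 := mul_le_mul_of_nonneg_left h2 hu0
  have n3 : (1 - x) * (θ * (9 * β ^ 2 * n / (4 * K ^ 2)) + 1) ≤ 9 / 4 * β ^ 2 * u + 1 := by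
    have h1 : 0 ≤ θ * (9 * β ^ 2 * n / (4 * K ^ 2)) + 1 := by positivity
    calc (1 - x) * (θ * (9 * β ^ 2 * n / (4 * K ^ 2)) + 1) ≤
          1 * (θ * (9 * β ^ 2 * n / (4 * K ^ 2)) + 1) :=
          mul_le_mul_of_nonneg_right (by linarith) h1
      _ ≤ _ := by linarith
  have n4 : (1 - x) * Real.log K ≤ u := by
    have h1 : Real.log K ≤ u := by
      have := Real.log_le_sub_one_of_pos hK0
      linarith
    have h0 : 0 ≤ Real.log K := Real.log_nonneg (by exact_mod_cast hK)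
    nlinarith
  have n5 : Real.log ((⌊θ * (β ^ 2 * n)⌋₊ : ℝ) + 1) ≤ Real.log (β ^ 2 + 1) + Real.log n := by
    rw [← Real.log_mul (by positivity) (by positivity)]
    refine Real.log_le_log hF ?_
    have h1 : (⌊θ * (β ^ 2 * n)⌋₊ : ℝ) ≤ θ * (β ^ 2 * n) := Nat.floor_le (by positivity)
    have h2 : θ * (β ^ 2 * n) ≤ 1 * (β ^ 2 * n) :=
      mul_le_mul_of_nonneg_right hθ1 (by positivity)
    nlinarith
  have hln : 0 ≤ Real.log n := Real.log_nonneg hn1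
  have n6 : (K : ℝ) * Real.log ((⌊θ * (β ^ 2 * n)⌋₊ : ℝ) + 1) ≤
      (u + 1) * (Real.log (β ^ 2 + 1) + Real.log n) :=
    mul_le_mul hKu1 n5 (Real.log_nonneg (by
      have : (0 : ℝ) ≤ (⌊θ * (β ^ 2 * n)⌋₊ : ℝ) := Nat.cast_nonneg _
      linarith)) (by linarith)
  push_cast at hlog
  have hb2 : 0 ≤ β ^ 2 := sq_nonneg β
  have fin := num_fin (B := β ^ 2) hb2 hu0 hlb hln
  linarith

/-- Kahane's inequality: the comparison with the penalty `θ = 1` -/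
theorem cmp_one (hn : 1 ≤ n) (β : ℝ) {p : ℝ} (hp : 0 ≤ p) :
    Np p (a2 n β) (1, 1) (fun _ => 0) ≤
      Np p (b2 n β) (1, 1) (fun s => -(1 * gap n β (1, 1) s)) := by
  have h := H329.PK.pkah hp (gap_diag hn β) (gram_le hn β) (1, 1)
  have e : (fun s => ∑ i, a2 n β (1, 1) i * a2 n β s i - ∑ i, b2 n β (1, 1) i * b2 n β s i) =
      fun s => -(1 * gap n β (1, 1) s) := by
    funext s
    rw [gram_gap hn]
    ring
  rw [e] at h
  exact h

/-- **The doubling inequality for the moments of the partition function of the SK model**, with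
the error `C n^{1/3} (1 + log n)`, for all exponents in `(0, 1]`. -/
theorem dbl (β : ℝ) : ∃ C : ℝ, 0 ≤ C ∧ ∀ n : ℕ, 1 ≤ n → ∀ x : ℝ, 0 < x → x ≤ 1 →
    Real.log (∫ g, Real.exp (x * freeEnergy (2 * n) β g) ∂(disorder (2 * n))) ≤
      2 * Real.log (∫ g, Real.exp (x * freeEnergy n β g) ∂(disorder n)) +
        C * (n : ℝ) ^ (1 / 3 : ℝ) * (1 + Real.log n) := by
  obtain ⟨C, hC, h⟩ := dbl_of β
  refine ⟨2 * C, by positivity, fun n hn x hx0 hx1 => ?_⟩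
  have key := h n hn x hx0 hx1 1 zero_le_one le_rfl
    (cmp_one hn β (p := 1 - x) (by linarith))
  rw [one_mul] at key
  have hn1 : (1 : ℝ) ≤ n := by exact_mod_cast hn
  have hln : 0 ≤ Real.log n := Real.log_nonneg hn1
  have h1 : (1 : ℝ) ≤ (n : ℝ) ^ (1 / 3 : ℝ) := Real.one_le_rpow hn1 (by norm_num)
  have h2 : (1 + (n : ℝ) ^ (1 / 3 : ℝ)) * (1 + Real.log n) ≤
      2 * (n : ℝ) ^ (1 / 3 : ℝ) * (1 + Real.log n) :=
    mul_le_mul_of_nonneg_right (by linarith) (by linarith)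
  have h3 := mul_le_mul_of_nonneg_left h2 hC
  linarith

end Vale.Agent.P146.H863.D29
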