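import Vale.Agent.P146.H501.Interp
import Vale.Agent.P146.H605.Gauge
import Vale.Agent.P146.H425.Gauss

/-!
# P146: the planted form of the moments of the partition function (helper863)

`E Z^x = 2^n * Np (1 - x)`, where `Np p = E[e^{H(1)} Z^{-p}]`.
-/

open MeasureTheory ProbabilityTheory

namespace Vale.Agent.P146.H863.D29

open Vale.Agent.P146 Vale.Agent.P146.H501

section gen

variable {ι S : Type*} [Fintype ι] [Fintype S]

/-- the planted moment `∫ exp (a_{s0} · g) (∑ exp (a_s · g + ψ_s))^{-p} dγ` -/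
noncomputable def Np (p : ℝ) (a : S → ι → ℝ) (s0 : S) (ψ : S → ℝ) : ℝ :=
  ∫ g, Real.exp (∑ i, a s0 i * g i) * zp (-p) a ψ g ∂(gpi ι)

lemma exp_lin_dom (v : ι → ℝ) : Dom (fun g : ι → ℝ => Real.exp (∑ i, v i * g i)) := by
  refine ⟨by fun_prop, 1, ∑ i, |v i|, zero_le_one, Finset.sum_nonneg fun _ _ => abs_nonneg _,
    fun g => ?_⟩
  rw [abs_of_pos (Real.exp_pos _), one_mul]
  refine Real.exp_le_exp.2 ?_
  calc ∑ i, v i * g i ≤ ∑ i, |v i| * ∑ j, |g j| := by
        refine Finset.sum_le_sum fun i _ => ?_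
        calc v i * g i ≤ |v i * g i| := le_abs_self _
          _ = |v i| * |g i| := abs_mul _ _
          _ ≤ |v i| * ∑ j, |g j| := mul_le_mul_of_nonneg_left
            (Finset.single_le_sum (f := fun j => |g j|) (fun j _ => abs_nonneg _)
              (Finset.mem_univ i)) (abs_nonneg _)
    _ = (∑ i, |v i|) * ∑ i, |g i| := by rw [Finset.sum_mul]

variable [Nonempty S]

lemma np_dom (p : ℝ) (a : S → ι → ℝ) (s0 : S) (ψ : S → ℝ) :
    Dom (fun g : ι → ℝ => Real.exp (∑ i, a s0 i * g i) * zp (-p) a ψ g) :=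
  (exp_lin_dom (a s0)).mul (zp_dom _ _ _)

lemma zp_split (x : ℝ) (a : S → ι → ℝ) (g : ι → ℝ) :
    zp x a (fun _ => 0) g =
      ∑ s, Real.exp (∑ i, a s i * g i) * zp (-(1 - x)) a (fun _ => 0) g := by
  have hz := zz_pos a (fun _ => 0) g
  have h1 : ∑ s, Real.exp (∑ i, a s i * g i) = zz a (fun _ => 0) g := by
    unfold zz wt
    exact Finset.sum_congr rfl fun s _ => by rw [add_zero]
  rw [← Finset.sum_mul, h1]
  unfold zp
  conv_rhs => rw [← Real.exp_log hz]
  rw [← Real.exp_add]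
  congr 1
  simp only [Real.log_exp]
  ring

end gen

variable {n : ℕ}

lemma ska_flip (β : ℝ) (s σ : Fin n → ℤˣ) (g : Pair n → ℝ) :
    ∑ p, ska n β σ p * H605.Gauge.flip s g p = ∑ p, ska n β (s * σ) p * g p := by
  rw [ska_sum, ska_sum, H605.Gauge.hamiltonian_flip]

lemma zz_flip (β : ℝ) (s : Fin n → ℤˣ) (g : Pair n → ℝ) :
    zz (ska n β) (fun _ => 0) (H605.Gauge.flip s g) = zz (ska n β) (fun _ => 0) g := by
  rw [← partitionFn_eq, ← partitionFn_eq, H605.Gauge.partitionFn_flip]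

lemma mp_flip (s : Fin n → ℤˣ) :
    MeasurePreserving (H605.Gauge.flip s) (gpi (Pair n)) (gpi (Pair n)) :=
  H605.Gauge.measurePreserving_flip s

/-- the gauge symmetry of the planted moment -/
theorem np_gauge (p β : ℝ) (s : Fin n → ℤˣ) :
    Np p (ska n β) s (fun _ => 0) = Np p (ska n β) 1 (fun _ => 0) := by
  unfold Np
  have hm : (gpi (Pair n)).map (H605.Gauge.flip s) = gpi (Pair n) := (mp_flip s).map_eq
  have hd := np_dom p (ska n β) s (fun _ => 0)
  conv_lhs => rw [← hm]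
  rw [integral_map (mp_flip s).measurable.aemeasurable hd.cont.aestronglyMeasurable]
  refine integral_congr_ae (Filter.Eventually.of_forall fun g => ?_)
  simp only
  rw [ska_flip]
  unfold zp
  rw [zz_flip]
  have : s * s = 1 := by
    funext i
    simp [Int.units_mul_self]
  rw [this]

/-- **the planted form** of the moments of the SK partition function -/
theorem gauge (x β : ℝ) :
    ∫ g, zp x (ska n β) (fun _ => 0) g ∂(gpi (Pair n)) =
      Fintype.card (Fin n → ℤˣ) * Np (1 - x) (ska n β) 1 (fun _ => 0) := by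
  simp_rw [zp_split x (ska n β)]
  rw [int_sum _ fun s _ => np_dom (1 - x) (ska n β) s (fun _ => 0)]
  have : ∀ s : Fin n → ℤˣ, ∫ g, Real.exp (∑ i, ska n β s i * g i) *
      zp (-(1 - x)) (ska n β) (fun _ => 0) g ∂(gpi (Pair n)) =
      Np (1 - x) (ska n β) 1 (fun _ => 0) := fun s => np_gauge (1 - x) β s
  rw [Finset.sum_congr rfl fun s _ => this s, Finset.sum_const, nsmul_eq_mul, Finset.card_univ]

theorem gauge_free (x β : ℝ) :
    ∫ g, Real.exp (x * freeEnergy n β g) ∂(disorder n) =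
      Fintype.card (Fin n → ℤˣ) * Np (1 - x) (ska n β) 1 (fun _ => 0) := by
  rw [← gauge]
  unfold disorder gpi zp
  simp_rw [freeEnergy_eq]

end Vale.Agent.P146.H863.D29
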