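import Mathlib

/-!
# Prékopa–Leindler for exponentials of concave functions (helper863)

`pl_one`   : one dimension.
`fibre`    : `x ↦ log ∫ exp (φ x t) dt` is concave for jointly concave `φ`.
`gauss`    : the same for the standard Gaussian measure on `κ → ℝ`.
-/

open MeasureTheory Set ProbabilityTheory
open scoped ENNReal

namespace Vale.Agent.P146.H863.PL

theorem bm_seg {A B C : Set ℝ} {l m : ℝ}
    (hC : Convex ℝ C) (h : ∀ a ∈ A, ∀ b ∈ B, l * a + m * b ∈ C)
    {x y x' y' : ℝ} (hx : x ∈ A) (hy : y ∈ A) (hx' : x' ∈ B) (hy' : y' ∈ B) :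
    ENNReal.ofReal (l * |x - y| + m * |x' - y'|) ≤ volume C := by
  wlog hxy : x ≤ y generalizing x y
  · have := this hy hx (le_of_not_ge hxy)
    rwa [abs_sub_comm y x] at this
  wlog hxy' : x' ≤ y' generalizing x' y'
  · have := this hy' hx' (le_of_not_ge hxy')
    rwa [abs_sub_comm y' x'] at this
  have hsub : Set.Icc (l * x + m * x') (l * y + m * y') ⊆ C :=
    hC.ordConnected.out (h x hx x' hx') (h y hy y' hy')
  calc ENNReal.ofReal (l * |x - y| + m * |x' - y'|)
      = ENNReal.ofReal ((l * y + m * y') - (l * x + m * x')) := by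
        rw [abs_of_nonpos (by linarith), abs_of_nonpos (by linarith)]; congr 1; ring
    _ = volume (Set.Icc (l * x + m * x') (l * y + m * y')) := by rw [Real.volume_Icc]
    _ ≤ volume C := measure_mono hsub

/-- one-dimensional Brunn–Minkowski, target set convex -/
theorem bm_one {A B C : Set ℝ} {l m : ℝ} (hl : 0 < l) (hm : 0 < m)
    (hA : A.Nonempty) (hB : B.Nonempty) (hC : Convex ℝ C)
    (h : ∀ a ∈ A, ∀ b ∈ B, l * a + m * b ∈ C) :
    ENNReal.ofReal l * volume A + ENNReal.ofReal m * volume B ≤ volume C := by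
  have key : ∀ S : Set ℝ, volume S ≤ ⨆ p : S × S, ENNReal.ofReal |(p.1 : ℝ) - p.2| := by
    intro S
    refine (Real.volume_le_diam S).trans (Metric.ediam_le fun x hx y hy => ?_)
    rw [edist_dist, Real.dist_eq]
    exact le_iSup (fun p : S × S => ENNReal.ofReal |(p.1 : ℝ) - p.2|) (⟨x, hx⟩, ⟨y, hy⟩)
  obtain ⟨a0, ha0⟩ := hA
  obtain ⟨b0, hb0⟩ := hB
  have : Nonempty (A × A) := ⟨(⟨a0, ha0⟩, ⟨a0, ha0⟩)⟩
  have : Nonempty (B × B) := ⟨(⟨b0, hb0⟩, ⟨b0, hb0⟩)⟩
  calc ENNReal.ofReal l * volume A + ENNReal.ofReal m * volume B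
      ≤ ENNReal.ofReal l * (⨆ p : A × A, ENNReal.ofReal |(p.1 : ℝ) - p.2|)
        + ENNReal.ofReal m * (⨆ p : B × B, ENNReal.ofReal |(p.1 : ℝ) - p.2|) := by
        gcongr
        · exact key A
        · exact key B
    _ = (⨆ p : A × A, ENNReal.ofReal l * ENNReal.ofReal |(p.1 : ℝ) - p.2|)
        + (⨆ p : B × B, ENNReal.ofReal m * ENNReal.ofReal |(p.1 : ℝ) - p.2|) := by
        rw [ENNReal.mul_iSup, ENNReal.mul_iSup]
    _ ≤ volume C := by
        refine ENNReal.iSup_add_iSup_le fun p q => ?_
        rw [← ENNReal.ofReal_mul hl.le, ← ENNReal.ofReal_mul hm.le,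
          ← ENNReal.ofReal_add (by positivity) (by positivity)]
        exact bm_seg hC h p.1.2 p.2.2 q.1.2 q.2.2

/-- a concave function with integrable exponential is bounded above -/
theorem bdd_far {u : ℝ → ℝ} (hu : ConcaveOn ℝ univ u)
    (hi : Integrable (fun t => Real.exp (u t))) (p : ℝ) {t : ℝ} (ht : 1 ≤ |t - p|) :
    u t ≤ max (u p) (2 * Real.log (2 * ∫ s, Real.exp (u s)) - u p) := by
  by_cases hup : u t ≤ u p
  · exact hup.trans (le_max_left _ _)
  push Not at hup
  refine le_trans ?_ (le_max_right _ _)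
  -- on the half of the segment next to `t`, `u ≥ (u p + u t) / 2`
  have hseg : ∀ θ : ℝ, 1 / 2 ≤ θ → θ ≤ 1 → (u p + u t) / 2 ≤ u (p + θ * (t - p)) := by
    intro θ h1 h2
    have h := hu.2 (mem_univ p) (mem_univ t) (show (0 : ℝ) ≤ 1 - θ by linarith)
      (show (0 : ℝ) ≤ θ by linarith) (by ring)
    simp only [smul_eq_mul] at h
    have e : (1 - θ) * p + θ * t = p + θ * (t - p) := by ring
    rw [e] at h
    nlinarith
  have hI : |t - p| / 2 * Real.exp ((u p + u t) / 2) ≤ ∫ s, Real.exp (u s) := by
    have hset : ∀ s ∈ Set.uIcc (p + (1 / 2) * (t - p)) t, (u p + u t) / 2 ≤ u s := by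
      intro s hs
      have hne : t - p ≠ 0 := by
        intro h0; rw [h0] at ht; simp at ht; linarith
      have hθ : s = p + ((s - p) / (t - p)) * (t - p) := by field_simp; ring
      rw [hθ]
      rcases lt_or_gt_of_ne hne with hneg | hpos
      · rw [Set.uIcc_of_ge (by linarith)] at hs
        apply hseg
        · rw [le_div_iff_of_neg hneg]; linarith [hs.2]
        · rw [div_le_one_of_neg hneg]; linarith [hs.1]
      · rw [Set.uIcc_of_le (by linarith)] at hs
        apply hseg
        · rw [le_div_iff₀ hpos]; linarith [hs.1]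
        · rw [div_le_one hpos]; linarith [hs.2]
    have hv : volume.real (Set.uIcc (p + (1 / 2) * (t - p)) t) = |t - p| / 2 := by
      rw [Measure.real, Set.uIcc, Real.volume_Icc, max_sub_min_eq_abs]
      rw [ENNReal.toReal_ofReal (abs_nonneg _)]
      have : t - (p + 1 / 2 * (t - p)) = (t - p) / 2 := by ring
      rw [this, abs_div]; norm_num
    calc |t - p| / 2 * Real.exp ((u p + u t) / 2)
        = ∫ s in Set.uIcc (p + (1 / 2) * (t - p)) t, Real.exp ((u p + u t) / 2) := by
          rw [setIntegral_const, hv, smul_eq_mul]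
      _ ≤ ∫ s in Set.uIcc (p + (1 / 2) * (t - p)) t, Real.exp (u s) := by
          refine setIntegral_mono_on ?_ hi.integrableOn measurableSet_uIcc ?_
          · exact integrableOn_const (by rw [Set.uIcc, Real.volume_Icc]; exact ENNReal.ofReal_ne_top)
          · intro s hs; exact Real.exp_le_exp.2 (hset s hs)
      _ ≤ ∫ s, Real.exp (u s) :=
          setIntegral_le_integral hi (Filter.Eventually.of_forall fun s => (Real.exp_pos _).le)
  have h2 : Real.exp ((u p + u t) / 2) ≤ 2 * ∫ s, Real.exp (u s) := by
    have : (1 : ℝ) / 2 * Real.exp ((u p + u t) / 2) ≤ |t - p| / 2 * Real.exp ((u p + u t) / 2) := by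
      gcongr
    linarith
  have h3 : (u p + u t) / 2 ≤ Real.log (2 * ∫ s, Real.exp (u s)) := by
    rw [Real.le_log_iff_exp_le (lt_of_lt_of_le (Real.exp_pos _) h2)]
    exact h2
  linarith

theorem bddAbove_of_integrable {u : ℝ → ℝ} (hu : ConcaveOn ℝ univ u)
    (hi : Integrable (fun t => Real.exp (u t))) : BddAbove (Set.range u) := by
  refine ⟨max (max (u 0) (2 * Real.log (2 * ∫ s, Real.exp (u s)) - u 0))
    (max (u 3) (2 * Real.log (2 * ∫ s, Real.exp (u s)) - u 3)), ?_⟩
  rintro _ ⟨t, rfl⟩
  by_cases h : 1 ≤ |t - 0|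
  · exact (bdd_far hu hi 0 h).trans (le_max_left _ _)
  · refine (bdd_far hu hi 3 ?_).trans (le_max_right _ _)
    push Not at h
    rw [sub_zero, abs_lt] at h
    rw [abs_of_nonpos (by linarith)]
    linarith


/-- Prékopa–Leindler on the line for exponentials of concave functions -/
theorem pl_one {u v w : ℝ → ℝ} (hu : ConcaveOn ℝ univ u) (hv : ConcaveOn ℝ univ v)
    (hw : ConcaveOn ℝ univ w) (iu : Integrable (fun t => Real.exp (u t)))
    (iv : Integrable (fun t => Real.exp (v t))) (iw : Integrable (fun t => Real.exp (w t)))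
    {l m : ℝ} (hl : 0 < l) (hm : 0 < m) (hlm : l + m = 1)
    (h : ∀ s t, l * u s + m * v t ≤ w (l * s + m * t)) :
    l * Real.log (∫ t, Real.exp (u t)) + m * Real.log (∫ t, Real.exp (v t))
      ≤ Real.log (∫ t, Real.exp (w t)) := by
  have bu := bddAbove_of_integrable hu iu
  have bv := bddAbove_of_integrable hv iv
  set cu := ⨆ t, u t with hcu
  set cv := ⨆ t, v t with hcv
  set cw := l * cu + m * cv with hcw
  -- normalised integrals
  set Iu := ∫ t, Real.exp (u t) with hIu
  set Iv := ∫ t, Real.exp (v t) with hIv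
  set Iw := ∫ t, Real.exp (w t) with hIw
  have pos : ∀ {f : ℝ → ℝ}, Integrable (fun t => Real.exp (f t)) → 0 < ∫ t, Real.exp (f t) := by
    intro f hf
    exact integral_exp_pos hf
  have key : ∀ {f : ℝ → ℝ} (c : ℝ), Integrable (fun t => Real.exp (f t)) →
      ENNReal.ofReal (Real.exp (-c) * ∫ t, Real.exp (f t))
        = ∫⁻ r in Set.Ioi (0 : ℝ), volume {t | r < Real.exp (f t - c)} := by
    intro f c hf
    have hf' : Integrable (fun t => Real.exp (f t - c)) := by
      have := hf.const_mul (Real.exp (-c))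
      refine this.congr (Filter.Eventually.of_forall fun t => ?_)
      simp only
      rw [← Real.exp_add]; congr 1; ring
    rw [← lintegral_eq_lintegral_meas_lt volume
      (Filter.Eventually.of_forall fun t => (Real.exp_pos _).le) hf'.aemeasurable,
      ← ofReal_integral_eq_lintegral_ofReal hf'
        (Filter.Eventually.of_forall fun t => (Real.exp_pos _).le)]
    congr 1
    rw [← integral_const_mul]
    refine integral_congr_ae (Filter.Eventually.of_forall fun t => ?_)
    simp only
    rw [← Real.exp_add]; congr 1; ring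
  have hle : ENNReal.ofReal l * ENNReal.ofReal (Real.exp (-cu) * Iu)
      + ENNReal.ofReal m * ENNReal.ofReal (Real.exp (-cv) * Iv)
      ≤ ENNReal.ofReal (Real.exp (-cw) * Iw) := by
    rw [key cu iu, key cv iv, key cw iw]
    rw [← lintegral_const_mul' _ _ ENNReal.ofReal_ne_top,
      ← lintegral_const_mul' _ _ ENNReal.ofReal_ne_top]
    refine (le_lintegral_add _ _).trans ?_
    refine setLIntegral_mono' measurableSet_Ioi fun r hr => ?_
    have hr0 : (0 : ℝ) < r := hr
    by_cases hr1 : r < 1
    · have hsets : ∀ {f : ℝ → ℝ} {c : ℝ}, {t | r < Real.exp (f t - c)}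
          = {t | c + Real.log r < f t} := by
        intro f c; ext t
        simp only [mem_setOf_eq]
        rw [← Real.log_lt_iff_lt_exp hr0]
        constructor <;> intro h <;> linarith
      have hlog : Real.log r < 0 := Real.log_neg hr0 hr1
      rw [hsets, hsets, hsets]
      refine bm_one hl hm ?_ ?_ ?_ ?_
      · obtain ⟨t, ht⟩ := exists_lt_of_lt_ciSup (show cu + Real.log r < ⨆ t, u t by linarith)
        exact ⟨t, ht⟩
      · obtain ⟨t, ht⟩ := exists_lt_of_lt_ciSup (show cv + Real.log r < ⨆ t, v t by linarith)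
        exact ⟨t, ht⟩
      · have := hw.convex_gt (cw + Real.log r)
        simpa using this
      · intro a ha b hb
        simp only [mem_setOf_eq] at ha hb ⊢
        have h1 := h a b
        have h2 : l * (cu + Real.log r) < l * u a := by
          exact mul_lt_mul_of_pos_left ha hl
        have h3 : m * (cv + Real.log r) < m * v b := by
          exact mul_lt_mul_of_pos_left hb hm
        have h4 : cw + Real.log r = l * (cu + Real.log r) + m * (cv + Real.log r) := by
          rw [hcw]
          have : Real.log r = (l + m) * Real.log r := by rw [hlm, one_mul]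
          linear_combination this
        linarith
    · have hempty : ∀ {f : ℝ → ℝ}, BddAbove (Set.range f) →
          {t | r < Real.exp (f t - ⨆ t, f t)} = ∅ := by
        intro f hf; ext t
        simp only [mem_setOf_eq, mem_empty_iff_false, iff_false, not_lt]
        have : f t ≤ ⨆ t, f t := le_ciSup hf t
        calc Real.exp (f t - ⨆ t, f t) ≤ Real.exp 0 := Real.exp_le_exp.2 (by linarith)
          _ = 1 := Real.exp_zero
          _ ≤ r := not_lt.1 hr1
      rw [hcu, hcv, hempty bu, hempty bv]
      simp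
  -- back to real numbers
  have Ipu := pos iu
  have Ipv := pos iv
  have Ipw := pos iw
  rw [← ENNReal.ofReal_mul hl.le, ← ENNReal.ofReal_mul hm.le,
    ← ENNReal.ofReal_add (by positivity) (by positivity),
    ENNReal.ofReal_le_ofReal_iff (by positivity)] at hle
  have hgm := Real.geom_mean_le_arith_mean2_weighted hl.le hm.le
    (show 0 ≤ Real.exp (-cu) * Iu by positivity) (show 0 ≤ Real.exp (-cv) * Iv by positivity) hlm
  have hfin := hgm.trans hle
  have hlog := Real.log_le_log (by positivity) hfin
  rw [Real.log_mul (by positivity) (by positivity), Real.log_rpow (by positivity),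
    Real.log_rpow (by positivity), Real.log_mul (by positivity) (by positivity),
    Real.log_mul (by positivity) (by positivity), Real.log_mul (by positivity) (by positivity),
    Real.log_exp, Real.log_exp, Real.log_exp] at hlog
  rw [hcw] at hlog
  linarith

end Vale.Agent.P146.H863.PL
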